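import Vale.Agent.P011.H519.HenselAdic

/-!
# Completions of Dedekind domains at primes with finite residue field are locally compact
-/

open IsDedekindDomain HeightOneSpectrum WithZero

namespace Vale.Agent.P011.H519

variable {A : Type*} [CommRing A] [IsDedekindDomain A] {K : Type*} [Field K] [Algebra A K]
  [IsFractionRing A K] {v : HeightOneSpectrum A}

/-- Neighbourhoods of a point of the completion. -/
theorem ball_mem_nhds (x : v.adicCompletion K) (n : ℤ) :
    {y : v.adicCompletion K | Valued.v (y - x) ≤ exp n} ∈ nhds x := by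
  obtain ⟨z, hz⟩ := valuedAdicCompletion_surjective K v (exp n)
  have hz0 : (Valued.v z : ℤᵐ⁰) ≠ 0 := by rw [hz]; exact exp_ne_zero
  have hz' : Valued.v.restrict z ≠ 0 := by simpa using hz0
  refine Valued.mem_nhds.mpr ⟨Units.mk0 _ hz', fun y hy => ?_⟩
  have h2 := (Valuation.restrict_lt_iff (v := Valued.v)).mp hy
  rw [hz] at h2
  exact h2.le

/-- Every neighbourhood of `x` contains a ball. -/
theorem exists_ball_subset {x : v.adicCompletion K} {U : Set (v.adicCompletion K)}
    (hU : U ∈ nhds x) :
    ∃ n : ℕ, {y : v.adicCompletion K | Valued.v (y - x) ≤ exp (-(n : ℤ))} ⊆ U := by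
  obtain ⟨γ, hγ⟩ := Valued.mem_nhds.mp hU
  obtain ⟨e, he⟩ : ∃ e : ℤᵐ⁰, e = MonoidWithZeroHom.ValueGroup₀.embedding γ.1 := ⟨_, rfl⟩
  have he0 : e ≠ 0 := by
    rw [he]
    simp
  refine ⟨(1 - log e).toNat, fun y hy => hγ ?_⟩
  change Valued.v.restrict (y - x) < γ.1
  rw [Valuation.restrict_lt_iff_lt_embedding, ← he]
  refine lt_of_le_of_lt hy ?_
  rw [← exp_log he0, exp_lt_exp]
  have := Int.self_le_toNat (1 - log e)
  rw [exp_log he0]
  omega

/-- Integral elements of the completion are approximated by the elements of `A`. -/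
theorem exists_near (x : v.adicCompletion K) (hx : Valued.v x ≤ 1) (n : ℕ) :
    ∃ a : A, Valued.v (algebraMap A (v.adicCompletion K) a - x) ≤ exp (-(n : ℤ)) := by
  obtain ⟨y, hy⟩ := (denseRange_algebraMap K v).exists_mem_open
    (s := interior {y : v.adicCompletion K | Valued.v (y - x) ≤ exp (-(n : ℤ))}) isOpen_interior
    ⟨x, mem_interior_iff_mem_nhds.mpr (ball_mem_nhds x _)⟩
  have hy1 : Valued.v (algebraMap K (v.adicCompletion K) y - x) ≤ exp (-(n : ℤ)) := by
    have h := interior_subset hy
    exact h
  have hn1 : exp (-(n : ℤ)) ≤ (1 : ℤᵐ⁰) := by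
    rw [← exp_zero, exp_le_exp]
    omega
  have hy2 : v.valuation K y ≤ 1 := by
    rw [← valuedAdicCompletion_eq_valuation' v y]
    have h1 : (y : v.adicCompletion K) = (algebraMap K (v.adicCompletion K) y - x) + x := by
      rw [sub_add_cancel]
      rfl
    rw [h1]
    exact (Valuation.map_add _ _ _).trans (max_le (hy1.trans hn1) hx)
  obtain ⟨a, ha⟩ := exists_valuation_sub_lt_of_integer v hy2
    (Units.mk0 (exp (-(n : ℤ))) exp_ne_zero)
  refine ⟨a, ?_⟩
  have h1 : algebraMap A (v.adicCompletion K) a - x =
      algebraMap K (v.adicCompletion K) (algebraMap A K a - y) +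
        (algebraMap K (v.adicCompletion K) y - x) := by
    rw [map_sub, ← IsScalarTower.algebraMap_apply A K (v.adicCompletion K)]
    ring
  rw [h1]
  refine (Valuation.map_add _ _ _).trans (max_le ?_ hy1)
  have h2 := valuedAdicCompletion_eq_valuation' v (algebraMap A K a - y)
  refine le_trans (le_of_eq h2) ?_
  exact ha.le

/-- The integers of the completion are compact if the residue field is finite. -/
theorem isCompact_integers [Finite (A ⧸ v.asIdeal)] :
    IsCompact {x : v.adicCompletion K | Valued.v x ≤ 1} := by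
  rw [isCompact_iff_totallyBounded_isComplete]
  refine ⟨?_, ?_⟩
  · rw [(Valued.hasBasis_uniformity (v.adicCompletion K) ℤᵐ⁰).totallyBounded_iff]
    rintro γ -
    obtain ⟨n, hn⟩ := exists_ball_subset (x := (0 : v.adicCompletion K))
      (U := {y | Valued.v.restrict y < γ.1})
      (Valued.mem_nhds.mpr ⟨γ, fun y hy => by simpa using hy⟩)
    have hfin : Finite (A ⧸ v.asIdeal ^ n) := Ideal.finite_quotient_pow
      (IsNoetherian.noetherian _) n
    refine ⟨Set.range fun c : A ⧸ v.asIdeal ^ n =>
      algebraMap A (v.adicCompletion K) (Quotient.out c), Set.finite_range _, fun x hx => ?_⟩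
    obtain ⟨a, ha⟩ := exists_near x hx n
    rw [Set.mem_iUnion₂]
    refine ⟨_, ⟨Ideal.Quotient.mk (v.asIdeal ^ n) a, rfl⟩, ?_⟩
    set b : A := Quotient.out (Ideal.Quotient.mk (v.asIdeal ^ n) a) with hb
    have hab : b - a ∈ v.asIdeal ^ n := by
      rw [← Ideal.Quotient.eq]
      exact Quotient.out_eq _
    have h1 : Valued.v (algebraMap A (v.adicCompletion K) b - x) ≤ exp (-(n : ℤ)) := by
      have h2 : algebraMap A (v.adicCompletion K) b - x =
          algebraMap A (v.adicCompletion K) (b - a) +
            (algebraMap A (v.adicCompletion K) a - x) := by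
        rw [map_sub]
        ring
      rw [h2]
      refine (Valuation.map_add _ _ _).trans (max_le ?_ ha)
      rw [← intValuation_le_pow_iff_mem] at hab
      have h3 := valuedAdicCompletion_eq_valuation (K := K) v (b - a)
      rw [valuation_of_algebraMap] at h3
      exact le_trans (le_of_eq h3) hab
    have h4 := hn (show algebraMap A (v.adicCompletion K) b - x ∈
      {y : v.adicCompletion K | Valued.v (y - 0) ≤ exp (-(n : ℤ))} by
        rw [Set.mem_ofPred_eq, sub_zero]
        exact h1)
    exact h4
  · have h1 : IsClosed {x : v.adicCompletion K | Valued.v x ≤ 1} :=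
      Valued.isClosed_integer (v.adicCompletion K)
    exact h1.isComplete

/-- The completion is locally compact if the residue field is finite. -/
theorem locallyCompactSpace [Finite (A ⧸ v.asIdeal)] : LocallyCompactSpace (v.adicCompletion K) := by
  refine (isCompact_integers (K := K) (v := v)).locallyCompactSpace_of_mem_nhds_of_addGroup
    (x := 0) ?_
  have h := ball_mem_nhds (K := K) (v := v) 0 0
  simpa using h

/-- All balls are compact. -/
theorem isCompact_ball [Finite (A ⧸ v.asIdeal)] (n : ℤ) :
    IsCompact {x : v.adicCompletion K | Valued.v x ≤ exp n} := by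
  obtain ⟨z, hz⟩ := valuedAdicCompletion_surjective K v (exp n)
  have hz0 : z ≠ 0 := by
    rintro rfl
    rw [map_zero] at hz
    exact exp_ne_zero hz.symm
  have h1 : {x : v.adicCompletion K | Valued.v x ≤ exp n} =
      (fun x => z * x) '' {x : v.adicCompletion K | Valued.v x ≤ 1} := by
    ext x
    constructor
    · intro hx
      refine ⟨z⁻¹ * x, ?_, mul_inv_cancel_left₀ hz0 x⟩
      rw [Set.mem_ofPred_eq] at hx ⊢
      rw [map_mul, map_inv₀, hz]
      calc (exp n)⁻¹ * Valued.v x ≤ (exp n)⁻¹ * exp n := mul_le_mul_right hx _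
        _ = 1 := inv_mul_cancel₀ exp_ne_zero
    · rintro ⟨y, hy, rfl⟩
      rw [Set.mem_ofPred_eq] at hy ⊢
      change Valued.v (z * y) ≤ _
      rw [map_mul, hz]
      calc exp n * Valued.v y ≤ exp n * 1 := mul_le_mul_right hy _
        _ = exp n := mul_one _
  rw [h1]
  exact isCompact_integers.image (by fun_prop)

end Vale.Agent.P011.H519
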