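import Mathlib

/-!
# The ring of polynomials over a finite field
-/

open Module IsDedekindDomain Polynomial

namespace Vale.Agent.P011.H519

variable (F : Type*) [Field F] [Finite F]

/-- The ring of polynomials over a finite field has finitely many units. -/
theorem finite_units_poly : Finite F[X]ˣ := by
  refine Finite.of_injective (fun u : F[X]ˣ => (u : F[X]).coeff 0) fun u w h => ?_
  obtain ⟨a, -, ha⟩ := Polynomial.isUnit_iff.mp u.isUnit
  obtain ⟨b, -, hb⟩ := Polynomial.isUnit_iff.mp w.isUnit
  ext1
  change (u : F[X]).coeff 0 = (w : F[X]).coeff 0 at h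
  rw [← ha, ← hb] at h ⊢
  rw [coeff_C_zero, coeff_C_zero] at h
  rw [h]

/-- The proper quotients of the ring of polynomials over a finite field are finite. -/
theorem hasFiniteQuotients_poly : Ring.HasFiniteQuotients F[X] where
  finiteQuotient := by
    intro I hI
    obtain ⟨f, hf, hf0⟩ := Submodule.exists_mem_ne_zero_of_ne_bot hI
    have h1 : FiniteDimensional F (AdjoinRoot f) := (AdjoinRoot.powerBasis hf0).finite
    have h2 : Finite (AdjoinRoot f) := Module.finite_of_finite F
    have h3 : Ideal.span {f} ≤ I := by
      rw [Ideal.span_singleton_le_iff_mem]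
      exact hf
    have h4 : Finite (F[X] ⧸ Ideal.span {f}) := h2
    exact Finite.of_surjective (Ideal.Quotient.factor h3) (Ideal.Quotient.factor_surjective h3)

/-- There are only finitely many primes with small residue fields. -/
theorem finite_small (N : ℕ) :
    {v : HeightOneSpectrum F[X] | Nat.card (F[X] ⧸ v.asIdeal) ≤ N}.Finite := by
  have := hasFiniteQuotients_poly F
  exact Ring.HasFiniteQuotients.finite_cardQuot_heightOneSpectrum_le N

end Vale.Agent.P011.H519
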