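import Mathlib

/-!
# Base change of central simple algebras along several embeddings of the centre

Twin for central simple algebras of the statements of `P011/H321/SplitAlg` for division algebras:
the image of a central simple algebra `B` of degree `n` under homomorphisms
`f t : B →+* M_n(F)`, `t : T`, which restrict to distinct embeddings `τ t` of the centre `K` in `F`,
spans `∏ t, M_n(F)` over `F`.
-/

open Module

namespace Vale.Agent.P011.H519

section indep

variable {K B F R : Type*} [Field K] [Ring B] [Algebra K B] [Algebra.IsCentral K B] [IsSimpleRing B]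
  [Field F] [Ring R] [Nontrivial R] [Algebra F R]

/-- Relations with coefficients which are independent over the centre are trivial. -/
theorem eq_zero_of_sum (τ : K →+* F) (f : B →+* R)
    (hf : ∀ c : K, f (algebraMap K B c) = algebraMap F R (τ c)) {ι : Type*} {b : ι → F}
    (hb : ∀ (s : Finset ι) (c : ι → K), ∑ j ∈ s, τ (c j) * b j = 0 → ∀ j ∈ s, c j = 0)
    (s : Finset ι) : ∀ d : ι → B, ∑ j ∈ s, b j • f (d j) = 0 → ∀ j ∈ s, d j = 0 := by
  classical
  induction s using Finset.strongInduction with
  | H s ih =>
    intro d hd
    by_contra hcon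
    push Not at hcon
    obtain ⟨j₀, hj₀, hne⟩ := hcon
    -- the ideal of the `j₀`-th coefficients
    let J : TwoSidedIdeal B := TwoSidedIdeal.mk'
      {x | ∃ e : ι → B, ∑ j ∈ s, b j • f (e j) = 0 ∧ e j₀ = x}
      ⟨0, by simp, rfl⟩
      (by
        rintro x y ⟨e, he, rfl⟩ ⟨e', he', rfl⟩
        refine ⟨e + e', ?_, rfl⟩
        simp only [Pi.add_apply, map_add, smul_add, Finset.sum_add_distrib, he, he', add_zero])
      (by
        rintro x ⟨e, he, rfl⟩
        refine ⟨-e, ?_, rfl⟩
        simp only [Pi.neg_apply, map_neg, smul_neg, Finset.sum_neg_distrib, he, neg_zero])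
      (by
        rintro x y ⟨e, he, rfl⟩
        refine ⟨fun j => x * e j, ?_, rfl⟩
        have h1 : ∑ j ∈ s, b j • f (x * e j) = f x * ∑ j ∈ s, b j • f (e j) := by
          rw [Finset.mul_sum]
          exact Finset.sum_congr rfl fun j _ => by rw [map_mul, mul_smul_comm]
        rw [h1, he, mul_zero])
      (by
        rintro x y ⟨e, he, rfl⟩
        refine ⟨fun j => e j * y, ?_, rfl⟩
        have h1 : ∑ j ∈ s, b j • f (e j * y) = (∑ j ∈ s, b j • f (e j)) * f y := by
          rw [Finset.sum_mul]
          exact Finset.sum_congr rfl fun j _ => by rw [map_mul, smul_mul_assoc]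
        rw [h1, he, zero_mul])
    have hJ : J = ⊤ := by
      refine (eq_bot_or_eq_top J).resolve_left fun h => hne ?_
      have h1 : d j₀ ∈ J := by
        rw [TwoSidedIdeal.mem_mk']
        exact ⟨d, hd, rfl⟩
      rwa [h, TwoSidedIdeal.mem_bot] at h1
    have h1J : (1 : B) ∈ J := by
      rw [hJ]
      trivial
    rw [TwoSidedIdeal.mem_mk'] at h1J
    obtain ⟨e, hsum, he0⟩ := h1J
    have hcomm : ∀ j ∈ s, ∀ a : B, a * e j = e j * a := by
      intro j hj a
      by_cases hjj : j = j₀
      · rw [hjj, he0, mul_one, one_mul]
      have h1 : ∑ i ∈ s.erase j₀, b i • f (a * e i - e i * a) = 0 := by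
        have h2 : ∑ i ∈ s, b i • f (a * e i - e i * a) = 0 := by
          have h3 : ∑ i ∈ s, b i • f (a * e i - e i * a) =
              f a * (∑ i ∈ s, b i • f (e i)) - (∑ i ∈ s, b i • f (e i)) * f a := by
            rw [Finset.mul_sum, Finset.sum_mul, ← Finset.sum_sub_distrib]
            exact Finset.sum_congr rfl fun i _ => by
              rw [map_sub, map_mul f a, map_mul f (e i), smul_sub, mul_smul_comm, smul_mul_assoc]
          rw [h3, hsum, mul_zero, zero_mul, sub_zero]
        rw [← Finset.add_sum_erase s _ hj₀, he0, mul_one, one_mul, sub_self, map_zero, smul_zero,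
          zero_add] at h2
        exact h2
      exact sub_eq_zero.mp (ih _ (Finset.erase_ssubset hj₀) _ h1 j
        (Finset.mem_erase.mpr ⟨hjj, hj⟩))
    have hcen : ∀ j ∈ s, ∃ c : K, algebraMap K B c = e j := by
      intro j hj
      have h1 : e j ∈ Subalgebra.center K B :=
        Subalgebra.mem_center_iff.mpr fun a => hcomm j hj a
      rw [Algebra.IsCentral.center_eq_bot, Algebra.mem_bot] at h1
      exact h1
    choose! c hc using hcen
    have h1 : ∑ j ∈ s, τ (c j) * b j = 0 := by
      apply FaithfulSMul.algebraMap_injective F R
      rw [map_sum, map_zero, ← hsum]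
      refine Finset.sum_congr rfl fun j hj => ?_
      rw [← hc j hj, hf, Algebra.smul_def, mul_comm, map_mul]
    have h2 := hb s c h1 j₀ hj₀
    have h3 := hc j₀ hj₀
    rw [h2, map_zero, he0] at h3
    exact zero_ne_one h3

/-- Independent elements of a central simple algebra stay independent after base change. -/
theorem linearIndependent_map (τ : K →+* F) (f : B →+* R)
    (hf : ∀ c : K, f (algebraMap K B c) = algebraMap F R (τ c)) {κ : Type*}
    {e : κ → B} (he : LinearIndependent K e) : LinearIndependent F fun i => f (e i) := by
  classical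
  let _ : Algebra K F := τ.toAlgebra
  rw [linearIndependent_iff']
  intro t g hg i hi
  let b := Basis.ofVectorSpace K F
  have hsm : ∀ (c : K) (x : B), f (c • x) = (algebraMap K F c) • f x := by
    intro c x
    rw [Algebra.smul_def, map_mul, hf, Algebra.smul_def]
    rfl
  set s : Finset (Basis.ofVectorSpaceIndex K F) := t.biUnion fun i => (b.repr (g i)).support with hs
  have hexp : ∀ i ∈ t, g i = ∑ j ∈ s, b.repr (g i) j • b j := by
    intro i hi
    conv_lhs => rw [← b.linearCombination_repr (g i), Finsupp.linearCombination_apply]
    rw [Finsupp.sum]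
    refine Finset.sum_subset (Finset.subset_biUnion_of_mem
      (fun i => (b.repr (g i)).support) hi) fun j _ hj => ?_
    rw [Finsupp.notMem_support_iff.mp hj, zero_smul]
  have h1 : ∑ j ∈ s, b j • f (∑ i ∈ t, b.repr (g i) j • e i) = 0 := by
    rw [← hg]
    have h2 : ∀ i ∈ t, g i • f (e i) = ∑ j ∈ s, b j • ((algebraMap K F (b.repr (g i) j)) •
        f (e i)) := by
      intro i hi
      conv_lhs => rw [hexp i hi, Finset.sum_smul]
      refine Finset.sum_congr rfl fun j _ => ?_
      rw [smul_smul]
      congr 1
      rw [Algebra.smul_def, mul_comm]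
    rw [Finset.sum_congr rfl h2, Finset.sum_comm]
    refine Finset.sum_congr rfl fun j _ => ?_
    rw [map_sum, Finset.smul_sum]
    exact Finset.sum_congr rfl fun i _ => by rw [hsm]
  have h2 := eq_zero_of_sum τ f hf (b := fun j => b j) (fun s c h j hj =>
    linearIndependent_iff'.mp b.linearIndependent s c (by
      rw [← h]
      exact Finset.sum_congr rfl fun j _ => Algebra.smul_def _ _) j hj) s _ h1
  rw [hexp i hi]
  refine Finset.sum_eq_zero fun j hj => ?_
  rw [linearIndependent_iff'.mp he t _ (h2 j hj) i hi, zero_smul]

end indep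

section matrix

variable {K B F : Type*} [Field K] [Ring B] [Algebra K B] [Algebra.IsCentral K B] [IsSimpleRing B]
  [Field F] {n : ℕ}

/-- The image of a splitting over a homomorphism of fields spans the matrix ring. -/
theorem span_range_eq_top (hn : finrank K B = n ^ 2) (hn0 : n ≠ 0) (τ : K →+* F)
    (f : B →+* Matrix (Fin n) (Fin n) F)
    (hf : ∀ c : K, f (algebraMap K B c) = algebraMap F _ (τ c)) :
    Submodule.span F (Set.range f) = ⊤ := by
  have : NeZero n := ⟨hn0⟩
  have : FiniteDimensional K B := Module.finite_of_finrank_pos (by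
    rw [hn]
    positivity)
  have h1 := linearIndependent_map τ f hf (finBasis K B).linearIndependent
  have h2 : Submodule.span F (Set.range fun i => f (finBasis K B i)) = ⊤ := by
    apply h1.span_eq_top_of_card_eq_finrank'
    rw [Fintype.card_fin, hn, Module.finrank_matrix, Fintype.card_fin, Module.finrank_self]
    ring
  rw [eq_top_iff, ← h2]
  exact Submodule.span_mono (by rintro _ ⟨i, rfl⟩; exact ⟨_, rfl⟩)

/-- Distinct homomorphisms to a field separate all coordinates. -/
theorem span_hom_eq_top {T : Type*} [Finite T] {τ : T → K →+* F} (hτ : Function.Injective τ) :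
    Submodule.span F (Set.range fun (c : K) (t : T) => τ t c) = ⊤ := by
  classical
  have := Fintype.ofFinite T
  have hli : LinearIndependent F fun t : T => (τ t : K → F) := by
    have h1 := linearIndependent_monoidHom K F
    have h2 : Function.Injective fun t : T => ((τ t : K →+* F) : K →* F) := by
      intro a b hab
      apply hτ
      ext x
      exact DFunLike.congr_fun hab x
    exact h1.comp _ h2
  by_contra hcon
  obtain ⟨φ, hφ0, hφ⟩ := Submodule.exists_le_ker_of_lt_top _ (lt_top_iff_ne_top.mpr hcon)
  apply hφ0
  have h1 : ∀ v : T → F, φ v = ∑ t, v t * φ (Pi.single t 1) := by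
    intro v
    conv_lhs => rw [← Finset.univ_sum_single v]
    rw [map_sum]
    refine Finset.sum_congr rfl fun t _ => ?_
    rw [← smul_eq_mul, ← map_smul]
    congr 1
    ext u
    rw [Pi.smul_apply, smul_eq_mul]
    by_cases h : t = u
    · subst h
      simp
    · rw [Pi.single_eq_of_ne (Ne.symm h), Pi.single_eq_of_ne (Ne.symm h), mul_zero]
  have h2 : ∑ t, φ (Pi.single t 1) • (τ t : K → F) = 0 := by
    ext c
    rw [Finset.sum_apply, Pi.zero_apply]
    have h3 : φ (fun t => τ t c) = 0 := hφ (Submodule.subset_span ⟨c, rfl⟩)
    rw [h1] at h3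
    rw [← h3]
    exact Finset.sum_congr rfl fun t _ => by rw [Pi.smul_apply, smul_eq_mul, mul_comm]
  have h3 := linearIndependent_iff'.mp hli Finset.univ _ h2
  ext t
  simpa using h3 t (Finset.mem_univ t)

/-- **The base change is the full product of matrix rings.** -/
theorem span_pi_eq_top (hn : finrank K B = n ^ 2) (hn0 : n ≠ 0) {T : Type*} [Finite T]
    {τ : T → K →+* F} (hτ : Function.Injective τ) (f : T → B →+* Matrix (Fin n) (Fin n) F)
    (hf : ∀ t (c : K), f t (algebraMap K B c) = algebraMap F _ (τ t c)) :
    Submodule.span F (Set.range fun (x : B) (t : T) => f t x) = ⊤ := by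
  classical
  have := Fintype.ofFinite T
  set W := Submodule.span F (Set.range fun (x : B) (t : T) => f t x) with hW
  have hmul : ∀ (v : T → F) (w : T → Matrix (Fin n) (Fin n) F), w ∈ W →
      (fun t => v t • w t) ∈ W := by
    intro v w hw
    have hv : v ∈ Submodule.span F (Set.range fun (c : K) (t : T) => τ t c) := by
      rw [span_hom_eq_top hτ]
      exact Submodule.mem_top
    induction hv using Submodule.span_induction with
    | mem x hx =>
      obtain ⟨c, rfl⟩ := hx
      induction hw using Submodule.span_induction with
      | mem y hy =>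
        obtain ⟨x, rfl⟩ := hy
        refine Submodule.subset_span ⟨algebraMap K B c * x, ?_⟩
        funext t
        change f t (algebraMap K B c * x) = τ t c • f t x
        rw [map_mul, hf, Algebra.smul_def]
      | zero =>
        convert W.zero_mem using 1
        funext t
        simp
      | add a b _ _ ha hb =>
        convert W.add_mem ha hb using 1
        funext t
        simp
      | smul r a _ ha =>
        convert W.smul_mem r ha using 1
        funext t
        change (τ t c : F) • (r • a t) = r • (τ t c • a t)
        exact smul_comm _ _ _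
    | zero =>
      convert W.zero_mem using 1
      funext t
      simp
    | add a b _ _ ha hb =>
      convert W.add_mem ha hb using 1
      funext t
      simp [add_smul]
    | smul r a _ ha =>
      convert W.smul_mem r ha using 1
      funext t
      exact mul_smul _ _ _
  have hsingle : ∀ (t : T) (M : Matrix (Fin n) (Fin n) F), Pi.single t M ∈ W := by
    intro t M
    have hM : M ∈ Submodule.span F (Set.range (f t)) := by
      rw [span_range_eq_top hn hn0 (τ t) (f t) (hf t)]
      exact Submodule.mem_top
    induction hM using Submodule.span_induction with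
    | mem x hx =>
      obtain ⟨x, rfl⟩ := hx
      convert hmul (Pi.single t 1) _ (Submodule.subset_span ⟨x, rfl⟩) using 1
      funext u
      by_cases h : t = u
      · subst h
        simp
      · rw [Pi.single_eq_of_ne (Ne.symm h), Pi.single_eq_of_ne (Ne.symm h), zero_smul]
    | zero =>
      rw [Pi.single_zero]
      exact W.zero_mem
    | add a b _ _ ha hb =>
      rw [Pi.single_add]
      exact W.add_mem ha hb
    | smul r a _ ha =>
      rw [Pi.single_smul]
      exact W.smul_mem r ha
  rw [eq_top_iff]
  intro w _
  rw [← Finset.univ_sum_single w]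
  exact W.sum_mem fun t _ => hsingle t _

end matrix

end Vale.Agent.P011.H519
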