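import Vale.Agent.P011.H519.HenselAdic

/-!
# Embeddings of a finite separable extension into completions of the base field

`A` is a Dedekind domain with finitely many units and infinitely many elements (`ℤ` or `Fq[t]`),
`K₀` its field of fractions.  A finite separable extension `L` of `K₀` has a `K₀`-embedding into the
completion of `K₀` at `v` for a prime `v` outside any given finite set.
-/

open IsDedekindDomain HeightOneSpectrum Polynomial WithZero

namespace Vale.Agent.P011.H519

section primes

variable {A : Type*} [CommRing A] [IsDedekindDomain A]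

/-- A nonzero element in all primes of a finite set. -/
theorem exists_mem_all {S : Set (HeightOneSpectrum A)} (hS : S.Finite) :
    ∃ m : A, m ≠ 0 ∧ ∀ v ∈ S, m ∈ v.asIdeal := by
  induction S, hS using Set.Finite.induction_on with
  | empty => exact ⟨1, one_ne_zero, fun v hv => absurd hv (Set.notMem_empty v)⟩
  | @insert v S _ _ ih =>
    obtain ⟨m, hm, h⟩ := ih
    obtain ⟨x, hx, hx0⟩ := Submodule.exists_mem_ne_zero_of_ne_bot v.ne_bot
    refine ⟨x * m, mul_ne_zero hx0 hm, ?_⟩
    rintro w (rfl | hw)
    · exact w.asIdeal.mul_mem_right _ hx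
    · exact w.asIdeal.mul_mem_left _ (h w hw)

theorem exists_prime_of_coeff_ne [Infinite A] [Finite Aˣ] {f : A[X]} (hdeg : f.natDegree ≠ 0)
    (hc : f.coeff 0 ≠ 0) {m : A} (hm : m ≠ 0) :
    ∃ v : HeightOneSpectrum A, m ∉ v.asIdeal ∧ ∃ a, f.eval a ∈ v.asIdeal := by
  classical
  set c := f.coeff 0 with hcdef
  set g : A[X] := 1 + C m * X * (divX f).comp (C (c * m) * X) with hg
  have hcm : c * m ≠ 0 := mul_ne_zero hc hm
  have hlin : (C (c * m) * X : A[X]).natDegree = 1 := natDegree_C_mul_X _ hcm
  have hdiv0 : (divX f).comp (C (c * m) * X) ≠ 0 := by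
    intro h
    have h1 : divX f ≠ 0 := by
      intro h2
      have h3 := divX_mul_X_add f
      rw [h2, zero_mul, zero_add] at h3
      apply hdeg
      rw [← h3, natDegree_C]
    rw [comp_eq_zero_iff] at h
    rcases h with h | ⟨_, h⟩
    · exact h1 h
    · rw [h, natDegree_C] at hlin
      exact zero_ne_one hlin
  have hprod : (C m * X * (divX f).comp (C (c * m) * X) : A[X]).natDegree ≠ 0 := by
    rw [natDegree_mul (mul_ne_zero (by simpa using hm) X_ne_zero) hdiv0,
      natDegree_C_mul_X _ hm]
    omega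
  have hgdeg : g.natDegree ≠ 0 := by
    rw [hg]
    have h1 : (1 : A[X]).natDegree < (C m * X * (divX f).comp (C (c * m) * X) : A[X]).natDegree := by
      rw [natDegree_one]; omega
    rw [natDegree_add_eq_right_of_natDegree_lt h1]
    exact hprod
  have hfg : ∀ b : A, f.eval (c * m * b) = c * g.eval b := by
    intro b
    have h3 := congrArg (eval (c * m * b)) (divX_mul_X_add f)
    rw [eval_add, eval_mul, eval_X, eval_C] at h3
    rw [← h3, hg, eval_add, eval_one, eval_mul, eval_mul, eval_C, eval_X, eval_comp, eval_mul,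
      eval_C, eval_X]
    ring
  have hg1 : ∀ b : A, ∃ z, g.eval b = 1 + m * z := by
    intro b
    refine ⟨b * ((divX f).comp (C (c * m) * X)).eval b, ?_⟩
    rw [hg, eval_add, eval_one, eval_mul, eval_mul, eval_C, eval_X]
    ring
  -- the set of bad `b` is finite
  let T : Set A := {0} ∪ Set.range ((↑) : Aˣ → A)
  have hT : T.Finite := (Set.finite_singleton 0).union (Set.finite_range _)
  have hB : {b | g.eval b ∈ T}.Finite := by
    have h1 : {b | g.eval b ∈ T} = ⋃ u ∈ T, {b | g.eval b = u} := by
      ext b; simp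
    rw [h1]
    refine hT.biUnion fun u _ => ?_
    have h2 : g - C u ≠ 0 := by
      intro h
      apply hgdeg
      rw [sub_eq_zero.mp h, natDegree_C]
    refine ((g - C u).roots.toFinset.finite_toSet).subset fun b hb => ?_
    have hb' : g.eval b = u := hb
    rw [Finset.mem_coe, Multiset.mem_toFinset, mem_roots h2, IsRoot, eval_sub, eval_C, hb',
      sub_self]
  obtain ⟨b, hb⟩ := hB.infinite_compl.nonempty
  have hb' : g.eval b ∉ T := hb
  have hb0 : g.eval b ≠ 0 := fun h => hb' (Or.inl h)
  have hbu : ¬ IsUnit (g.eval b) := fun h => hb' (Or.inr ⟨h.unit, rfl⟩)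
  obtain ⟨P, hP, hmem⟩ := exists_max_ideal_of_mem_nonunits hbu
  have hP0 : P ≠ ⊥ := by
    rintro rfl
    exact hb0 hmem
  refine ⟨⟨P, hP.isPrime, hP0⟩, ?_, c * m * b, ?_⟩
  · intro h
    obtain ⟨z, hz⟩ := hg1 b
    apply hP.ne_top
    rw [Ideal.eq_top_iff_one]
    have h1 : (1 : A) = g.eval b - m * z := by rw [hz]; ring
    rw [h1]
    exact sub_mem hmem (P.mul_mem_right _ h)
  · rw [hfg]
    exact P.mul_mem_left _ hmem

/-- There are primes outside a given finite set, not containing a given `d ≠ 0`, and containing a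
value of a given nonconstant polynomial. -/
theorem exists_prime_value [Infinite A] [Finite Aˣ] {f : A[X]} (hdeg : f.natDegree ≠ 0)
    {d : A} (hd : d ≠ 0) {S : Set (HeightOneSpectrum A)} (hS : S.Finite) :
    ∃ v : HeightOneSpectrum A, v ∉ S ∧ d ∉ v.asIdeal ∧ ∃ a, f.eval a ∈ v.asIdeal := by
  obtain ⟨m, hm, hmS⟩ := exists_mem_all hS
  have hdm : d * m ≠ 0 := mul_ne_zero hd hm
  by_cases hc : f.coeff 0 = 0
  · obtain ⟨v, hv, -⟩ := exists_prime_of_coeff_ne (f := (X + C 1 : A[X]))
      (by rw [natDegree_X_add_C]; exact one_ne_zero) (by simp) hdm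
    refine ⟨v, fun h => hv (v.asIdeal.mul_mem_left _ (hmS v h)),
      fun h => hv (v.asIdeal.mul_mem_right _ h), 0, ?_⟩
    rw [← coeff_zero_eq_eval_zero, hc]
    exact v.asIdeal.zero_mem
  · obtain ⟨v, hv, h⟩ := exists_prime_of_coeff_ne hdeg hc hdm
    exact ⟨v, fun h => hv (v.asIdeal.mul_mem_left _ (hmS v h)),
      fun h => hv (v.asIdeal.mul_mem_right _ h), h⟩

end primes

section embed

variable (A : Type*) [CommRing A] [IsDedekindDomain A] {K₀ : Type*} [Field K₀] [Algebra A K₀]
  [IsFractionRing A K₀]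

/-- A Bezout relation between a separable polynomial and its derivative, with denominators
removed. -/
theorem exists_bezout {f : A[X]} (hf : (f.map (algebraMap A K₀)).Separable) :
    ∃ (p q : A[X]) (d : A), d ≠ 0 ∧ p * f + q * derivative f = C d := by
  obtain ⟨a, b, hab⟩ := hf
  obtain ⟨d1, hd1, h1⟩ := IsLocalization.integerNormalization_spec (nonZeroDivisors A) a
  obtain ⟨d2, hd2, h2⟩ := IsLocalization.integerNormalization_spec (nonZeroDivisors A) b
  set p1 := IsLocalization.integerNormalization (nonZeroDivisors A) a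
  set q1 := IsLocalization.integerNormalization (nonZeroDivisors A) b
  refine ⟨C d2 * p1, C d1 * q1, d1 * d2,
    mul_ne_zero (nonZeroDivisors.ne_zero hd1) (nonZeroDivisors.ne_zero hd2), ?_⟩
  apply Polynomial.map_injective (algebraMap A K₀) (IsFractionRing.injective A K₀)
  rw [Polynomial.map_add, Polynomial.map_mul, Polynomial.map_mul, Polynomial.map_mul,
    Polynomial.map_mul, map_C, map_C, map_C, h1, h2, ← derivative_map, map_mul]
  rw [Algebra.smul_def, Algebra.smul_def]
  change C (algebraMap A K₀ d2) * (C (algebraMap A K₀ d1) * a) * _ +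
    C (algebraMap A K₀ d1) * (C (algebraMap A K₀ d2) * b) * _ = _
  rw [C_mul]
  calc _ = C (algebraMap A K₀ d1) * C (algebraMap A K₀ d2) *
        (a * f.map (algebraMap A K₀) + b * derivative (f.map (algebraMap A K₀))) := by ring
    _ = _ := by rw [hab, mul_one]

variable {L : Type*} [Field L] [Algebra K₀ L] [FiniteDimensional K₀ L] [Algebra.IsSeparable K₀ L]

/-- **Embeddings into completions**: a finite separable extension `L` of `K₀ = Frac A` embeds over
`K₀` into the completion of `K₀` at some prime outside a given finite set. -/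
theorem exists_embedding [Infinite A] [Finite Aˣ] {S : Set (HeightOneSpectrum A)}
    (hS : S.Finite) :
    ∃ v : HeightOneSpectrum A, v ∉ S ∧ Nonempty (L →ₐ[K₀] v.adicCompletion K₀) := by
  let _ : Algebra A L := ((algebraMap K₀ L).comp (algebraMap A K₀)).toAlgebra
  have htow : IsScalarTower A K₀ L := IsScalarTower.of_algebraMap_eq fun _ => rfl
  obtain ⟨α, hα⟩ := Field.exists_primitive_element K₀ L
  obtain ⟨y, hy0, hy⟩ := exists_integral_multiples A K₀ ({α} : Finset L)
  set β : L := y • α with hβdef
  have hβ : IsIntegral A β := hy α (Finset.mem_singleton_self α)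
  have hy0' : algebraMap A K₀ y ≠ 0 := by
    rwa [Ne, IsFractionRing.to_map_eq_zero_iff]
  have hβK : IsIntegral K₀ β := hβ.tower_top
  have hβtop : Algebra.adjoin K₀ ({β} : Set L) = ⊤ := by
    have h1 : α ∈ Algebra.adjoin K₀ ({β} : Set L) := by
      have h2 : α = (algebraMap A K₀ y)⁻¹ • β := by
        rw [hβdef, ← algebraMap_smul K₀ y α, smul_smul, inv_mul_cancel₀ hy0', one_smul]
      rw [h2]
      exact Subalgebra.smul_mem _ (Algebra.self_mem_adjoin_singleton K₀ β) _
    have h3 : Algebra.adjoin K₀ ({α} : Set L) = ⊤ := by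
      rw [← IntermediateField.adjoin_simple_toSubalgebra_of_isAlgebraic
        (Algebra.IsAlgebraic.isAlgebraic (R := K₀) α), hα, IntermediateField.top_toSubalgebra]
    rw [eq_top_iff, ← h3]
    exact Algebra.adjoin_le (by simpa using h1)
  have hmin : minpoly K₀ β = (minpoly A β).map (algebraMap A K₀) :=
    minpoly.isIntegrallyClosed_eq_field_fractions' K₀ hβ
  have hsep : ((minpoly A β).map (algebraMap A K₀)).Separable := by
    rw [← hmin]
    exact Algebra.IsSeparable.isSeparable K₀ β
  obtain ⟨p, q, d, hd, hpq⟩ := exists_bezout A hsep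
  obtain ⟨v, hvS, hdv, a, ha⟩ := exists_prime_value (f := minpoly A β)
    (minpoly.natDegree_pos hβ).ne' hd hS
  have hder : (derivative (minpoly A β)).eval a ∉ v.asIdeal := by
    intro h
    apply hdv
    have h1 := congrArg (eval a) hpq
    rw [eval_add, eval_mul, eval_mul, eval_C] at h1
    rw [← h1]
    exact add_mem (v.asIdeal.mul_mem_left _ ha) (v.asIdeal.mul_mem_left _ h)
  obtain ⟨z, hz, -⟩ := hensel (K := K₀) (v := v) (minpoly.monic hβ) ha hder
  refine ⟨v, hvS, ⟨(PowerBasis.ofAdjoinEqTop hβK hβtop).lift (z : v.adicCompletion K₀) ?_⟩⟩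
  rw [PowerBasis.ofAdjoinEqTop_gen, hmin, aeval_map_algebraMap]
  have h2 : aeval (algebraMap (v.adicCompletionIntegers K₀) (v.adicCompletion K₀) z)
      (minpoly A β) = 0 := by
    rw [aeval_algebraMap_apply, hz, map_zero]
  exact h2

end embed

end Vale.Agent.P011.H519
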