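import Vale.Agent.P011.H519.SplitCSA
import Vale.Agent.P011.H519.SplitFF
import Vale.Agent.P011.H519.SpanCSA

/-!
# Totally split primes

`A` is a Dedekind domain with infinitely many elements and finitely many units (`ℤ`, `F_q[t]`),
`K₀` its field of fractions, `K` a finite separable extension of `K₀`, `B` a central simple
algebra over `K`. Outside every finite set there is a prime of `A` at which `K` splits totally and
at which `B` is split for every embedding of `K`. Any characteristic.
-/

open Module IsDedekindDomain Polynomial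

namespace Vale.Agent.P011.H519

universe u

section lift

variable {K₀ K L F : Type u} [Field K₀] [Field K] [Field L] [Field F] [Algebra K₀ K] [Algebra K₀ L]
  [Algebra K L] [IsScalarTower K₀ K L] [Algebra K₀ F] [FiniteDimensional K₀ L]

/-- If all conjugates of the elements of `L` lie in `F`, then an embedding of `K` in `F` extends to
an embedding of `L`. -/
theorem exists_lift (h : ∀ x : L, ((minpoly K₀ x).map (algebraMap K₀ F)).Splits)
    (σ : K →ₐ[K₀] F) : ∃ τ : L →ₐ[K₀] F, ∀ c : K, τ (algebraMap K L c) = σ c := by
  obtain ⟨φ, hφ⟩ := IntermediateField.exists_algHom_of_splits' (E := L) σ (fun s => by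
    have h1 : IsIntegral K₀ s := Algebra.IsIntegral.isIntegral s
    refine ⟨h1.tower_top, h1.minpoly_splits_tower_top' ?_⟩
    have h2 : (σ.toRingHom.comp (algebraMap K₀ K)) = algebraMap K₀ F := σ.comp_algebraMap
    rw [h2]
    exact h s)
  exact ⟨φ, fun c => DFunLike.congr_fun hφ c⟩

end lift

variable {A K₀ : Type u} [CommRing A] [IsDedekindDomain A] [Field K₀] [Algebra A K₀]
  [IsFractionRing A K₀]

/-- A finite separable extension splits totally at some prime outside a given finite set. -/
theorem exists_splits [Infinite A] [Finite Aˣ] {L : Type u} [Field L] [Algebra K₀ L]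
    [FiniteDimensional K₀ L] [Algebra.IsSeparable K₀ L] {S : Set (HeightOneSpectrum A)}
    (hS : S.Finite) :
    ∃ v : HeightOneSpectrum A, v ∉ S ∧
      ∀ x : L, ((minpoly K₀ x).map (algebraMap K₀ (v.adicCompletion K₀))).Splits := by
  let Ω := SeparableClosure K₀
  let j : L →ₐ[K₀] Ω := IsSepClosed.lift
  let M := IntermediateField.normalClosure K₀ L Ω
  have hfd : FiniteDimensional K₀ M := inferInstance
  have hgal : IsGalois K₀ M := inferInstance
  obtain ⟨v, hv, ⟨ι⟩⟩ := exists_embedding (A := A) (K₀ := K₀) (L := M) hS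
  refine ⟨v, hv, fun x => ?_⟩
  let y : M := ⟨j x, j.fieldRange_le_normalClosure ⟨x, rfl⟩⟩
  have h1 : minpoly K₀ x = minpoly K₀ y := by
    rw [← minpoly.algHom_eq j j.injective x, ← minpoly.algHom_eq M.val M.val.injective y]
    rfl
  have h2 : ((minpoly K₀ y).map (algebraMap K₀ M)).Splits := Normal.splits inferInstance y
  have h3 := h2.map ι.toRingHom
  rw [Polynomial.map_map] at h3
  have h4 : (ι.toRingHom.comp (algebraMap K₀ M)) = algebraMap K₀ (v.adicCompletion K₀) :=
    ι.comp_algebraMap
  rwa [h4, ← h1] at h3

variable {K B : Type u} [Field K] [Algebra K₀ K] [FiniteDimensional K₀ K]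
  [Algebra.IsSeparable K₀ K] [Ring B] [Algebra K B] [Algebra.IsCentral K B] [IsSimpleRing B]

/-- **Totally split primes**: there are primes `v` outside every finite set such that `K` splits
totally at `v` (so it has `[K : K₀]` embeddings over `K₀` in the completion `K₀_v`), and for each
embedding of `K` the algebra `B` maps to the `n × n` matrices over `K₀_v`. -/
theorem exists_total_split [Infinite A] [Finite Aˣ] {n : ℕ} (hn : n ≠ 0)
    (hB : finrank K B = n ^ 2) {S : Set (HeightOneSpectrum A)} (hS : S.Finite) :
    ∃ v : HeightOneSpectrum A, v ∉ S ∧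
      (∀ x : K, ((minpoly K₀ x).map (algebraMap K₀ (v.adicCompletion K₀))).Splits) ∧
      ∀ σ : K →ₐ[K₀] v.adicCompletion K₀,
        ∃ f : B →+* Matrix (Fin n) (Fin n) (v.adicCompletion K₀),
          ∀ c : K, f (algebraMap K B c) = algebraMap _ _ (σ c) := by
  obtain ⟨L, _, _, hsep, hfin, ⟨f⟩⟩ := exists_splitting_simple (K := K) (A := B) hn hB
  let _ : Algebra K₀ L := ((algebraMap K L).comp (algebraMap K₀ K)).toAlgebra
  have htow : IsScalarTower K₀ K L := IsScalarTower.of_algebraMap_eq fun _ => rfl
  have hfd : FiniteDimensional K₀ L := FiniteDimensional.trans K₀ K L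
  have hsp : Algebra.IsSeparable K₀ L := Algebra.IsSeparable.trans K₀ K L
  obtain ⟨v, hv, h⟩ := exists_splits (A := A) (K₀ := K₀) (L := L) hS
  refine ⟨v, hv, fun x => ?_, fun σ => ?_⟩
  · have h1 := h (algebraMap K L x)
    rwa [minpoly.algebraMap_eq (algebraMap K L).injective] at h1
  · obtain ⟨τ, hτ⟩ := exists_lift h σ
    refine ⟨(τ.toRingHom.mapMatrix).comp f.toRingHom, fun c => ?_⟩
    change (τ.toRingHom.mapMatrix) (f (algebraMap K B c)) = _
    rw [f.commutes, ← hτ]
    refine Matrix.ext fun i k => ?_
    rw [RingHom.mapMatrix_apply, Matrix.map_apply, Matrix.algebraMap_matrix_apply,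
      Matrix.algebraMap_matrix_apply]
    split_ifs
    · rfl
    · exact map_zero τ

section swap

variable {k : Type u} [Field k] [Algebra K₀ k] [Algebra k K] [IsScalarTower K₀ k K] [StarRing K]
  [StarRing B] [StarModule K B]

omit [IsDedekindDomain A] [IsFractionRing A K₀] [FiniteDimensional K₀ K]
  [Algebra.IsSeparable K₀ K] [Algebra.IsCentral K B] [IsSimpleRing B] in
theorem star_algebraMap (c : K) : star (algebraMap K B c) = algebraMap K B (star c) := by
  rw [Algebra.algebraMap_eq_smul_one, star_smul, star_one, ← Algebra.algebraMap_eq_smul_one]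

/-- The second component of the base change at a split place: `x ↦ (f x*)ᵀ`. -/
def transp {F : Type*} [Field F] {n : ℕ} (f : B →+* Matrix (Fin n) (Fin n) F) :
    B →+* Matrix (Fin n) (Fin n) F where
  toFun x := (f (star x)).transpose
  map_one' := by rw [star_one, map_one, Matrix.transpose_one]
  map_mul' x y := by rw [star_mul, map_mul, Matrix.transpose_mul]
  map_zero' := by rw [star_zero, map_zero, Matrix.transpose_zero]
  map_add' x y := by rw [star_add, map_add, Matrix.transpose_add]

/-- **Split places of an algebra with an involution of the second kind.** Outside every finite set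
of primes of `A` there is a prime `v` such that `K` splits totally at `v` and such that, for every
embedding `s` of `k` in the completion `F = K₀_v`, there are an embedding `σ s` of `K` extending
`s` and a homomorphism `f s : B → M_n(F)` over `σ s`, such that the elements
`(f s x, (f s x*)ᵀ)_s` span `∏ s, M_n(F) × M_n(F)` over `F`: the algebra with involution
`F ⊗ B` is the product of the algebras `M_n(F) × M_n(F)` with the involution
`(X, Y) ↦ (Yᵀ, Xᵀ)`. -/
theorem exists_swap [Infinite A] [Finite Aˣ]
    (hne : ∃ x : K, star x ≠ x)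
    (hk : ∀ x : k, star (algebraMap k K x) = algebraMap k K x)
    {n : ℕ} (hn : n ≠ 0) (hB : finrank K B = n ^ 2)
    {S : Set (HeightOneSpectrum A)} (hS : S.Finite) :
    ∃ v : HeightOneSpectrum A, v ∉ S ∧
      (∀ x : K, ((minpoly K₀ x).map (algebraMap K₀ (v.adicCompletion K₀))).Splits) ∧
      Nat.card (k →ₐ[K₀] v.adicCompletion K₀) = finrank K₀ k ∧
      ∃ (σ : (k →ₐ[K₀] v.adicCompletion K₀) → K →ₐ[K₀] v.adicCompletion K₀)
        (f : (k →ₐ[K₀] v.adicCompletion K₀) →
          B →+* Matrix (Fin n) (Fin n) (v.adicCompletion K₀)),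
        (∀ s (c : k), σ s (algebraMap k K c) = s c) ∧
        (∀ s (c : K), f s (algebraMap K B c) = algebraMap _ _ (σ s c)) ∧
        Submodule.span (v.adicCompletion K₀)
          (Set.range fun (x : B) (s : k →ₐ[K₀] v.adicCompletion K₀) =>
            (f s x, (f s (star x)).transpose)) = ⊤ := by
  classical
  obtain ⟨v, hv, hsp, hf⟩ := exists_total_split (A := A) (K₀ := K₀) (K := K) (B := B) hn hB hS
  have hfdk : FiniteDimensional K₀ k :=
    FiniteDimensional.of_injective (IsScalarTower.toAlgHom K₀ k K).toLinearMap
      (algebraMap k K).injective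
  have hsepk : Algebra.IsSeparable K₀ k := Algebra.isSeparable_tower_bot_of_isSeparable K₀ k K
  have hspk : ∀ x : k, ((minpoly K₀ x).map (algebraMap K₀ (v.adicCompletion K₀))).Splits := by
    intro x
    have h1 := hsp (algebraMap k K x)
    rwa [minpoly.algebraMap_eq (algebraMap k K).injective] at h1
  have hcard := AlgHom.natCard_of_splits K₀ k _ hspk
  have hlift : ∀ s : k →ₐ[K₀] v.adicCompletion K₀, ∃ σ : K →ₐ[K₀] v.adicCompletion K₀,
      ∀ c : k, σ (algebraMap k K c) = s c := fun s => exists_lift hsp s
  choose σ hσ using hlift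
  choose f hf using fun s => hf (σ s)
  refine ⟨v, hv, hsp, hcard, σ, f, hσ, hf, ?_⟩
  have hfinT : Finite (k →ₐ[K₀] v.adicCompletion K₀) :=
    Nat.finite_of_card_ne_zero (by rw [hcard]; exact finrank_pos.ne')
  let τ : (k →ₐ[K₀] v.adicCompletion K₀) × Bool → K →+* v.adicCompletion K₀ := fun p =>
    if p.2 then (σ p.1).toRingHom else (σ p.1).toRingHom.comp (starRingEnd K)
  have hτk : ∀ p (c : k), τ p (algebraMap k K c) = p.1 c := by
    rintro ⟨s, b⟩ c
    cases b with
    | true => exact hσ s c
    | false =>
      change σ s (star (algebraMap k K c)) = s c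
      rw [hk, hσ]
  have hτ : Function.Injective τ := by
    rintro ⟨s, b⟩ ⟨s', b'⟩ h
    have hs : s = s' := by
      refine AlgHom.ext fun c => ?_
      have h1 := hτk (s, b) c
      rw [h, hτk] at h1
      exact h1.symm
    subst hs
    obtain ⟨x, hx⟩ := hne
    have hcon : ∀ y : K, σ s y ≠ σ s (star y) ∨ star y = y := by
      intro y
      by_cases hy : star y = y
      · exact Or.inr hy
      · exact Or.inl fun h' => hy ((σ s).injective h').symm
    have hx' : σ s x ≠ σ s (star x) := (hcon x).resolve_right hx
    cases b <;> cases b'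
    · rfl
    · exact absurd (DFunLike.congr_fun h x).symm hx'
    · exact absurd (DFunLike.congr_fun h x) hx'
    · rfl
  let f' : (k →ₐ[K₀] v.adicCompletion K₀) × Bool →
      B →+* Matrix (Fin n) (Fin n) (v.adicCompletion K₀) := fun p =>
    if p.2 then f p.1 else transp (f p.1)
  have hf' : ∀ p (c : K), f' p (algebraMap K B c) = algebraMap _ _ (τ p c) := by
    rintro ⟨s, b⟩ c
    cases b with
    | true => exact hf s c
    | false =>
      change (f s (star (algebraMap K B c))).transpose = algebraMap _ _ (σ s (star c))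
      rw [star_algebraMap, hf, Matrix.algebraMap_eq_diagonal, Matrix.diagonal_transpose]
  have hspan := span_pi_eq_top hB hn hτ f' hf'
  -- the linear equivalence of the two products
  let e : ((k →ₐ[K₀] v.adicCompletion K₀) × Bool →
      Matrix (Fin n) (Fin n) (v.adicCompletion K₀)) →ₗ[v.adicCompletion K₀]
      ((k →ₐ[K₀] v.adicCompletion K₀) → Matrix (Fin n) (Fin n) (v.adicCompletion K₀) ×
        Matrix (Fin n) (Fin n) (v.adicCompletion K₀)) :=
    { toFun := fun w s => (w (s, true), w (s, false))
      map_add' := fun _ _ => rfl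
      map_smul' := fun _ _ => rfl }
  have he : Function.Surjective e := fun w =>
    ⟨fun p => if p.2 then (w p.1).1 else (w p.1).2, rfl⟩
  have h1 := Submodule.map_span e (Set.range fun (x : B) t => f' t x)
  rw [hspan, Submodule.map_top, LinearMap.range_eq_top.mpr he, ← Set.range_comp] at h1
  exact h1.symm

end swap

end Vale.Agent.P011.H519
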