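import Vale.Agent.P011.H271.KSF
import Vale.Agent.P011.H519.SplitPlace
import Vale.Agent.P011.H519.PolyPlaces
import Vale.Agent.P011.H519.LocComp

/-!
# Split places of a central simple algebra with unitary involution over a function field
-/

open Module IsDedekindDomain HeightOneSpectrum Polynomial WithZero
open Vale.Agent.P011.H738 Vale.Agent.P011.H271

namespace Vale.Agent.P011.H519

section transfer

variable {A K₀ k : Type} [CommRing A] [IsDedekindDomain A] [Field K₀] [Algebra A K₀]
  [IsFractionRing A K₀] [Field k] [Algebra K₀ k] [GFF k] {v : HeightOneSpectrum A}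

/-- The place of `k` given by an embedding of `k` in a completion. -/
theorem exists_place (s : k →ₐ[K₀] v.adicCompletion K₀) :
    ∃ q : Place k, ∀ x : k, (toPl q).v x = Valued.v (s x) := by
  let W : Valuation k ℤᵐ⁰ := (Valued.v : Valuation (v.adicCompletion K₀) ℤᵐ⁰).comap s.toRingHom
  have hWK : ∀ y : K₀, W (algebraMap K₀ k y) = v.valuation K₀ y := by
    intro y
    change Valued.v (s (algebraMap K₀ k y)) = _
    rw [s.commutes]
    exact valuedAdicCompletion_eq_valuation' v y
  have hsurj : Function.Surjective W := by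
    intro γ
    obtain ⟨y, hy⟩ := valuation_surjective (K := K₀) v γ
    exact ⟨algebraMap K₀ k y, by rw [hWK, hy]⟩
  have hne : W.valuationSubring ≠ ⊤ := by
    rw [ne_eq, Valuation.valuationSubring_eq_top_iff, not_not]
    obtain ⟨x, hx⟩ := hsurj (exp 1)
    refine ⟨⟨x, ?_, ?_⟩⟩
    · rw [hx]; exact exp_ne_zero
    · rw [hx, ← exp_zero, ne_eq, exp_inj]; norm_num
  obtain ⟨q, hq⟩ := toPl_surjective (k := k) ⟨W.valuationSubring, hne⟩
  refine ⟨q, fun x => ?_⟩
  rw [(toPl q).eq_v W hsurj (by rw [hq])]
  rfl

variable {q : Place k}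

theorem abv_le_iff {s : k →ₐ[K₀] v.adicCompletion K₀} (hq : ∀ x : k, (toPl q).v x = Valued.v (s x))
    (x : k) (n : ℤ) : q.abv x ≤ (qq q : ℝ) ^ n ↔ Valued.v (s x) ≤ exp n := by
  rw [← hq, toPl_le]

/-- The completion of `k` at the place is the completion of `K₀`. -/
theorem exists_equiv {s : k →ₐ[K₀] v.adicCompletion K₀}
    (hq : ∀ x : k, (toPl q).v x = Valued.v (s x)) :
    ∃ e : q.comp ≃+* v.adicCompletion K₀, ∀ x : k, e (algebraMap k q.comp x) = s x := by
  let s' : WithAbs q.abv →+* v.adicCompletion K₀ :=
    s.toRingHom.comp (WithAbs.equiv q.abv).toRingHom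
  have hs' : Continuous s' := by
    refine continuous_of_continuousAt_zero s' ?_
    intro U hU
    rw [map_zero] at hU
    obtain ⟨n, hn⟩ := exists_ball_subset hU
    have h1 : {x : WithAbs q.abv | ‖x‖ ≤ (qq q : ℝ) ^ (-(n : ℤ))} ∈ nhds (0 : WithAbs q.abv) := by
      have h2 := Metric.closedBall_mem_nhds (0 : WithAbs q.abv)
        (zpow_pos (qq_pos q) (-(n : ℤ)))
      refine Filter.mem_of_superset h2 fun x hx => ?_
      rwa [Metric.mem_closedBall, dist_zero_right] at hx
    refine Filter.mem_map.mpr (Filter.mem_of_superset h1 fun x hx => hn ?_)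
    change Valued.v (s (WithAbs.equiv q.abv x) - 0) ≤ _
    rw [sub_zero, ← abv_le_iff hq]
    exact hx
  let e : q.comp →+* v.adicCompletion K₀ := UniformSpace.Completion.extensionHom s' hs'
  have he : ∀ x : k, e (algebraMap k q.comp x) = s x := by
    intro x
    exact UniformSpace.Completion.extensionHom_coe s' hs' (WithAbs.toAbs q.abv x)
  have hcont : Continuous e := UniformSpace.Completion.continuous_extension
  have hsurj : Function.Surjective e := by
    intro y
    have hden : ∀ n : ℕ, ∃ x : k, Valued.v (s x - y) ≤ exp (-(n : ℤ)) := by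
      intro n
      obtain ⟨z, hz⟩ := (denseRange_algebraMap K₀ v).exists_mem_open
        (s := interior {z : v.adicCompletion K₀ | Valued.v (z - y) ≤ exp (-(n : ℤ))})
        isOpen_interior ⟨y, mem_interior_iff_mem_nhds.mpr (ball_mem_nhds y _)⟩
      have hz' := interior_subset hz
      refine ⟨algebraMap K₀ k z, ?_⟩
      rw [s.commutes]
      exact hz'
    choose x hx using hden
    have hstep : ∀ n, dist (algebraMap k q.comp (x n)) (algebraMap k q.comp (x (n + 1))) ≤
        1 * ((qq q : ℝ)⁻¹) ^ n := by
      intro n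
      rw [dist_eq_norm, ← map_sub, norm_alg, one_mul, inv_pow, ← zpow_natCast, ← zpow_neg,
        abv_le_iff hq, map_sub]
      have h1 : s (x n) - s (x (n + 1)) = (s (x n) - y) - (s (x (n + 1)) - y) := by ring
      rw [h1]
      refine (Valuation.map_sub _ _ _).trans (max_le (hx n) ((hx (n + 1)).trans ?_))
      rw [exp_le_exp]
      push_cast
      omega
    have hlt : ((qq q : ℝ)⁻¹) < 1 := inv_lt_one_of_one_lt₀ (one_lt_qq' q)
    have hcau := cauchySeq_of_le_geometric _ _ hlt hstep
    obtain ⟨z, hz⟩ := cauchySeq_tendsto_of_complete hcau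
    refine ⟨z, ?_⟩
    have h1 : Filter.Tendsto (fun n => e (algebraMap k q.comp (x n))) Filter.atTop
        (nhds (e z)) := (hcont.tendsto z).comp hz
    have h2 : Filter.Tendsto (fun n => e (algebraMap k q.comp (x n))) Filter.atTop (nhds y) := by
      intro U hU
      obtain ⟨n, hn⟩ := exists_ball_subset hU
      refine Filter.mem_map.mpr (Filter.mem_of_superset (Filter.mem_atTop n) fun m hm => hn ?_)
      change Valued.v (e (algebraMap k q.comp (x m)) - y) ≤ _
      rw [he]
      refine (hx m).trans ?_
      rw [exp_le_exp]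
      have : n ≤ m := hm
      omega
    exact tendsto_nhds_unique h1 h2
  exact ⟨RingEquiv.ofBijective e ⟨e.injective, hsurj⟩, he⟩

/-- The place is determined by the prime below it up to finitely many choices. -/
theorem finite_below (T : Finset (Place k)) :
    {v : HeightOneSpectrum A | ∃ q ∈ T, ∀ y : K₀, (toPl q).v (algebraMap K₀ k y) =
      v.valuation K₀ y}.Finite := by
  have h1 : {v : HeightOneSpectrum A | ∃ q ∈ T, ∀ y : K₀, (toPl q).v (algebraMap K₀ k y) =
      v.valuation K₀ y} = ⋃ q ∈ T, {v : HeightOneSpectrum A | ∀ y : K₀,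
        (toPl q).v (algebraMap K₀ k y) = v.valuation K₀ y} := by
    ext v
    simp
  rw [h1]
  refine T.finite_toSet.biUnion fun q _ => Set.Subsingleton.finite fun v hv w hw => ?_
  refine hosV_injective (k := K₀) ?_
  ext y
  rw [mem_hosV, mem_hosV, ← hv, ← hw]

theorem abv_lt_iff (q : Place k) (x : k) : q.abv x < 1 ↔ (toPl q).v x < 1 := by
  by_cases hx : x = 0
  · subst hx
    simp
  rw [← not_le, ← not_le, not_iff_not]
  have h1 := toPl_le_one q x⁻¹
  rw [map_inv₀, map_inv₀] at h1
  rw [← inv_le_one₀ (AbsoluteValue.pos _ hx), ← h1]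
  rw [inv_le_one₀]
  rw [zero_lt_iff]
  exact (Valuation.ne_zero_iff _).mpr hx

/-- The residue field of the place is at least as large as that of the prime below. -/
theorem card_le_qq [Finite (A ⧸ v.asIdeal)] (hq : ∀ y : K₀, (toPl q).v (algebraMap K₀ k y) =
    v.valuation K₀ y) : Nat.card (A ⧸ v.asIdeal) ≤ qq q := by
  have h0 : ∀ a : A, (toPl q).v (algebraMap K₀ k (algebraMap A K₀ a)) ≤ 1 := fun a => by
    rw [hq]
    exact v.valuation_le_one a
  let f : A →+* integers q.abv q.nonarch :=
    ((algebraMap K₀ k).comp (algebraMap A K₀)).codRestrict _ fun a => (toPl_le_one q _).mp (h0 a)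
  let g : A →+* integers q.abv q.nonarch ⧸ maxIdeal q.abv q.nonarch :=
    (Ideal.Quotient.mk _).comp f
  have hg : ∀ a ∈ v.asIdeal, g a = 0 := by
    intro a ha
    refine Ideal.Quotient.eq_zero_iff_mem.mpr ?_
    change q.abv (algebraMap K₀ k (algebraMap A K₀ a)) < 1
    rw [abv_lt_iff, hq, valuation_lt_one_iff_mem]
    exact ha
  have hfin := q.normalized.1
  have hnt : Nontrivial (integers q.abv q.nonarch ⧸ maxIdeal q.abv q.nonarch) := by
    rw [← Finite.one_lt_card_iff_nontrivial]
    exact one_lt_qq q
  have hmax := v.isMaximal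
  let _ := Ideal.Quotient.field v.asIdeal
  exact Nat.card_le_card_of_injective (Ideal.Quotient.lift v.asIdeal g hg)
    (RingHom.injective _)

end transfer

section quad

variable {k K : Type} [Field k] [Field K] [StarRing K] [Algebra k K]

/-- The centre is a separable quadratic extension of the fixed field of the involution. -/
theorem quad (hfix : ∀ x : K, star x = x ↔ x ∈ Set.range (algebraMap k K))
    (hne : ∃ x : K, star x ≠ x) :
    FiniteDimensional k K ∧ Algebra.IsSeparable k K ∧ finrank k K = 2 := by
  obtain ⟨u, hu⟩ := hne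
  have hu' : u - star u ≠ 0 := sub_ne_zero.mpr fun h => hu h.symm
  have hmem : ∀ x : K, star x = x → ∃ a : k, algebraMap k K a = x := fun x hx => (hfix x).mp hx
  have hk : ∀ a : k, star (algebraMap k K a) = algebraMap k K a := fun a =>
    (hfix _).mpr ⟨a, rfl⟩
  have hspan : ∀ y : K, ∃ a b : k, y = algebraMap k K a + algebraMap k K b * u := by
    intro y
    obtain ⟨b, hb⟩ := hmem ((y - star y) / (u - star u)) (by
      rw [star_div₀, star_sub, star_sub, star_star, star_star, ← neg_sub y, ← neg_sub u,
        neg_div_neg_eq])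
    have hb' : y - star y = algebraMap k K b * (u - star u) := by
      rw [hb, div_mul_cancel₀ _ hu']
    obtain ⟨a, ha⟩ := hmem (y - algebraMap k K b * u) (by
      rw [star_sub, star_mul', hk]
      linear_combination -hb')
    exact ⟨a, b, by rw [ha, sub_add_cancel]⟩
  have hli : LinearIndependent k ![(1 : K), u] := by
    rw [LinearIndependent.pair_iff]
    intro a b hab
    rw [Algebra.smul_def, Algebra.smul_def, mul_one] at hab
    have h1 := congrArg star hab
    rw [star_add, star_mul', hk, hk, star_zero] at h1
    have h2 : algebraMap k K b * (u - star u) = 0 := by linear_combination hab - h1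
    have h3 : algebraMap k K b = 0 := (mul_eq_zero.mp h2).resolve_right hu'
    rw [h3, zero_mul, add_zero] at hab
    exact ⟨(map_eq_zero _).mp hab, (map_eq_zero _).mp h3⟩
  have hsp : ⊤ ≤ Submodule.span k (Set.range ![(1 : K), u]) := by
    intro y _
    obtain ⟨a, b, rfl⟩ := hspan y
    have h1 : algebraMap k K a + algebraMap k K b * u = a • (1 : K) + b • u := by
      rw [Algebra.smul_def, Algebra.smul_def, mul_one]
    rw [h1]
    exact Submodule.add_mem _ (Submodule.smul_mem _ _ (Submodule.subset_span ⟨0, rfl⟩))
      (Submodule.smul_mem _ _ (Submodule.subset_span ⟨1, rfl⟩))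
  let b : Basis (Fin 2) k K := Basis.mk hli hsp
  have hfd : FiniteDimensional k K := Module.Finite.of_basis b
  refine ⟨hfd, ⟨fun x => ?_⟩, ?_⟩
  · by_cases hx : star x = x
    · obtain ⟨a, rfl⟩ := hmem x hx
      exact isSeparable_algebraMap a
    · obtain ⟨t, ht⟩ := hmem (x + star x) (by rw [star_add, star_star, add_comm])
      obtain ⟨m, hm⟩ := hmem (x * star x) (by rw [star_mul', star_star, mul_comm])
      let p : k[X] := X ^ 2 - C t * X + C m
      have hp : p.map (algebraMap k K) = (X - C x) * (X - C (star x)) := by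
        simp only [p, Polynomial.map_add, Polynomial.map_sub, Polynomial.map_mul,
          Polynomial.map_pow, map_X, map_C, ht, hm, map_add, map_mul]
        ring
      have h1 : p.Separable := by
        rw [← Polynomial.separable_map (algebraMap k K), hp]
        refine (separable_X_sub_C).mul (separable_X_sub_C) ?_
        exact isCoprime_X_sub_C_of_isUnit_sub (sub_ne_zero.mpr fun h => hx h.symm).isUnit
      refine h1.of_dvd (minpoly.dvd k x ?_)
      rw [aeval_def, eval₂_eq_eval_map, hp]
      simp
  · rw [finrank_eq_card_basis b, Fintype.card_fin]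

end quad

section span

variable {K B F : Type*} [Field K] [Ring B] [Algebra K B] [Algebra.IsCentral K B] [IsSimpleRing B]
  [Field F] {n : ℕ} [StarRing K] [StarRing B] [StarModule K B]

/-- The base change of the algebra with involution at a split place. -/
theorem span_swap (hn : finrank K B = n ^ 2) (hn0 : n ≠ 0) (hne : ∃ x : K, star x ≠ x)
    (σ : K →+* F) (f : B →+* Matrix (Fin n) (Fin n) F)
    (hf : ∀ c : K, f (algebraMap K B c) = algebraMap F _ (σ c)) :
    Submodule.span F (Set.range fun x : B => (f x, (f (star x)).transpose)) = ⊤ := by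
  let τ : Bool → K →+* F := fun b => if b then σ else σ.comp (starRingEnd K)
  have hτ : Function.Injective τ := by
    obtain ⟨x, hx⟩ := hne
    have hx' : σ x ≠ σ (star x) := fun h => hx (σ.injective h).symm
    intro b b' h
    cases b <;> cases b'
    · rfl
    · exact absurd (DFunLike.congr_fun h x).symm hx'
    · exact absurd (DFunLike.congr_fun h x) hx'
    · rfl
  let f' : Bool → B →+* Matrix (Fin n) (Fin n) F := fun b => if b then f else transp f
  have hf' : ∀ b (c : K), f' b (algebraMap K B c) = algebraMap _ _ (τ b c) := by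
    intro b c
    cases b with
    | true => exact hf c
    | false =>
      change (f (star (algebraMap K B c))).transpose = algebraMap _ _ (σ (star c))
      have h1 : star (algebraMap K B c) = algebraMap K B (star c) := by
        rw [Algebra.algebraMap_eq_smul_one, star_smul, star_one, ← Algebra.algebraMap_eq_smul_one]
      rw [h1, hf, Matrix.algebraMap_eq_diagonal, Matrix.diagonal_transpose]
  have hspan := span_pi_eq_top hn hn0 hτ f' hf'
  let e : (Bool → Matrix (Fin n) (Fin n) F) →ₗ[F]
      (Matrix (Fin n) (Fin n) F × Matrix (Fin n) (Fin n) F) :=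
    { toFun := fun w => (w true, w false)
      map_add' := fun _ _ => rfl
      map_smul' := fun _ _ => rfl }
  have he : Function.Surjective e := fun w => ⟨fun p => if p then w.1 else w.2, rfl⟩
  have h1 := Submodule.map_span e (Set.range fun (x : B) t => f' t x)
  rw [hspan, Submodule.map_top, LinearMap.range_eq_top.mpr he, ← Set.range_comp] at h1
  exact h1.symm

end span

section basis

variable {k K B : Type} [Field k] [Field K] [StarRing K] [Ring B] [StarRing B]
  [Algebra k K] [Algebra k B] [Algebra K B] [IsScalarTower k K B] [StarModule K B] {n : ℕ}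

/-- The involution is linear over the fixed field. -/
theorem star_smul_of_anis (hB : Anis k K B n) (c : k) (x : B) : star (c • x) = c • star x := by
  rw [← algebraMap_smul K c x, star_smul, (hB.fixed _).mpr ⟨c, rfl⟩, algebraMap_smul]

theorem finrank_of_anis (hB : Anis k K B n) : finrank k B = 2 * n ^ 2 := by
  obtain ⟨h1, -, h2⟩ := quad hB.fixed hB.star_ne
  rw [← finrank_mul_finrank k K B, h2, hB.finrank_eq]

/-- At a split place a basis of the algebra becomes a basis of `M_n × M_n`. -/
theorem basis_swap (hB : Anis k K B n) {F : Type*} [Field F] [Algebra k F]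
    {f : B →+* Matrix (Fin n) (Fin n) F}
    (hf : ∀ c : k, f (algebraMap k B c) = algebraMap F _ (algebraMap k F c))
    (hspan : Submodule.span F (Set.range fun x : B => (f x, (f (star x)).transpose)) = ⊤)
    {ι : Type*} [Finite ι] (b : Basis ι k B) :
    ∃ b' : Basis ι F (Matrix (Fin n) (Fin n) F × Matrix (Fin n) (Fin n) F),
      ∀ i, b' i = (f (b i), (f (star (b i))).transpose) := by
  have := Fintype.ofFinite ι
  have hsm : ∀ (c : k) (x : B), f (c • x) = algebraMap k F c • f x := by
    intro c x
    rw [Algebra.smul_def, map_mul, hf, ← Algebra.smul_def]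
  have hsp : ⊤ ≤ Submodule.span F (Set.range fun i => (f (b i), (f (star (b i))).transpose)) := by
    rw [← hspan, Submodule.span_le]
    rintro _ ⟨x, rfl⟩
    have h1 : (f x, (f (star x)).transpose) = ∑ i, algebraMap k F (b.repr x i) •
        (f (b i), (f (star (b i))).transpose) := by
      conv_lhs => rw [← b.sum_repr x]
      rw [star_sum, map_sum, map_sum, Matrix.transpose_sum]
      refine Prod.ext ?_ ?_
      · rw [Prod.fst_sum]
        exact Finset.sum_congr rfl fun i _ => hsm _ _
      · rw [Prod.snd_sum]
        refine Finset.sum_congr rfl fun i _ => ?_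
        rw [star_smul_of_anis hB, hsm, Matrix.transpose_smul]
        rfl
    rw [SetLike.mem_coe]
    change (f x, (f (star x)).transpose) ∈ _
    rw [h1]
    exact Submodule.sum_mem _ fun i _ => Submodule.smul_mem _ _ (Submodule.subset_span ⟨i, rfl⟩)
  have hcard : Fintype.card ι = finrank F (Matrix (Fin n) (Fin n) F × Matrix (Fin n) (Fin n) F) := by
    rw [← finrank_eq_card_basis b, finrank_of_anis hB, Module.finrank_prod, Module.finrank_matrix,
      Fintype.card_fin, Module.finrank_self]
    ring
  have hli := linearIndependent_of_top_le_span_of_card_eq_finrank hsp hcard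
  exact ⟨Basis.mk hli hsp, fun i => by rw [Basis.mk_apply]⟩

end basis

/-- **Split places over function fields.** Let `B` be a central simple algebra of degree `n` with
an anisotropic involution of the second kind over the function field `k`. Outside every finite set
of places of `k`, and with residue field as large as wanted, there are places `q` such that `K`
embeds in `k_q`, `B` maps to the `n × n` matrices over `k_q` over this embedding, and
`k_q ⊗ B = M_n(k_q) × M_n(k_q)` with the involution `(X, Y) ↦ (Yᵀ, Xᵀ)`. -/
theorem exists_split_place {k K B : Type} [Field k] [Field K] [StarRing K] [Ring B] [StarRing B]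
    [Algebra k K] [Algebra k B] [Algebra K B] [IsScalarTower k K B] [StarModule K B] {n : ℕ}
    (hk : IsGlobalFunctionField k) (hB : Anis k K B n) (hn : n ≠ 0) (T : Finset (Place k))
    (N : ℕ) :
    ∃ q : Place k, q ∉ T ∧ N ≤ qq q ∧ ∃ (φ : K →ₐ[k] q.comp)
      (f : B →+* Matrix (Fin n) (Fin n) q.comp),
      (∀ c : K, f (algebraMap K B c) = algebraMap q.comp _ (φ c)) ∧
      (∀ c : k, f (algebraMap k B c) = algebraMap q.comp _ (algebraMap k q.comp c)) ∧
      Submodule.span q.comp (Set.range fun x : B => (f x, (f (star x)).transpose)) = ⊤ := by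
  classical
  have hgff := gff_of_isGlobal hk
  obtain ⟨F, _, _, φ₀, hφ1, hφ2⟩ := hgff.out
  let _ : Algebra (RatFunc F) k := φ₀.toAlgebra
  have hfd : FiniteDimensional (RatFunc F) k := hφ1
  have hsep : Algebra.IsSeparable (RatFunc F) k := hφ2
  let _ : Algebra (RatFunc F) K := ((algebraMap k K).comp φ₀).toAlgebra
  have htow : IsScalarTower (RatFunc F) k K := IsScalarTower.of_algebraMap_eq fun _ => rfl
  obtain ⟨hfdK, hsepK, -⟩ := quad hB.fixed hB.star_ne
  have hfd' : FiniteDimensional (RatFunc F) K := FiniteDimensional.trans (RatFunc F) k K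
  have hsep' : Algebra.IsSeparable (RatFunc F) K := Algebra.IsSeparable.trans (RatFunc F) k K
  have hcen := hB.central
  have hsim := hB.simple
  have hunits := finite_units_poly F
  have hquot := hasFiniteQuotients_poly F
  obtain ⟨v, hv, hsplit, hf⟩ := exists_total_split (A := F[X]) (K₀ := RatFunc F) (K := K) (B := B)
    hn hB.finrank_eq ((finite_small F N).union (finite_below (A := F[X]) (K₀ := RatFunc F) T))
  have hfin : Finite (F[X] ⧸ v.asIdeal) := Ring.HasFiniteQuotients.finiteQuotient v.ne_bot
  have hspk : ∀ x : k, ((minpoly (RatFunc F) x).map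
      (algebraMap (RatFunc F) (v.adicCompletion (RatFunc F)))).Splits := by
    intro x
    have h1 := hsplit (algebraMap k K x)
    rwa [minpoly.algebraMap_eq (algebraMap k K).injective] at h1
  obtain ⟨s⟩ : Nonempty (k →ₐ[RatFunc F] v.adicCompletion (RatFunc F)) := by
    have h1 := AlgHom.natCard_of_splits (RatFunc F) k _ hspk
    have h2 : Nat.card (k →ₐ[RatFunc F] v.adicCompletion (RatFunc F)) ≠ 0 := by
      rw [h1]
      exact finrank_pos.ne'
    by_contra h3
    rw [not_nonempty_iff] at h3
    exact h2 Nat.card_of_isEmpty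
  obtain ⟨σ, hσ⟩ := exists_lift hsplit s
  obtain ⟨f, hf⟩ := hf σ
  obtain ⟨q, hq⟩ := exists_place s
  obtain ⟨e, he⟩ := exists_equiv hq
  have hqK : ∀ y : RatFunc F, (toPl q).v (algebraMap (RatFunc F) k y) = v.valuation _ y := by
    intro y
    rw [hq, s.commutes]
    exact valuedAdicCompletion_eq_valuation' v y
  have hes : ∀ x : k, e.symm (s x) = algebraMap k q.comp x := fun x => by
    rw [← he, RingEquiv.symm_apply_apply]
  refine ⟨q, fun hqT => hv (Or.inr ⟨q, hqT, hqK⟩), ?_, ?_⟩
  · refine le_trans ?_ (card_le_qq (v := v) (K₀ := RatFunc F) hqK)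
    by_contra hlt
    exact hv (Or.inl (not_le.mp hlt).le)
  let φ : K →ₐ[k] q.comp :=
    { (e.symm.toRingHom.comp σ.toRingHom) with
      commutes' := fun c => by
        change e.symm (σ (algebraMap k K c)) = _
        rw [hσ, hes] }
  let g : B →+* Matrix (Fin n) (Fin n) q.comp := (e.symm.toRingHom.mapMatrix).comp f
  have hg : ∀ c : K, g (algebraMap K B c) = algebraMap q.comp _ (φ c) := by
    intro c
    change (e.symm.toRingHom.mapMatrix) (f (algebraMap K B c)) = _
    rw [hf]
    refine Matrix.ext fun i j => ?_
    rw [RingHom.mapMatrix_apply, Matrix.map_apply, Matrix.algebraMap_matrix_apply,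
      Matrix.algebraMap_matrix_apply]
    split_ifs
    · rfl
    · exact map_zero e.symm
  refine ⟨φ, g, hg, fun c => ?_, span_swap hB.finrank_eq hn hB.star_ne (φ : K →+* q.comp) g hg⟩
  rw [IsScalarTower.algebraMap_apply k K B, hg, φ.commutes]

end Vale.Agent.P011.H519
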