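import Vale.Agent.P011.Two.Defs
import Vale.Agent.P011.MPQ.Defs
import Vale.Agent.P011.H63.FBase

/-!
# Rank two over function fields: the statements of the blocks

`hh`, `An`, `Uh`, `e₁`, `IsDiag` are those of `Two.Defs` (general), `Qt`, `nrd`, `Aniso`, `SL1`
those of `MPQ.Defs` (general), `LSF` is the one of `H63.FBase`.
-/

open Module

set_option linter.unusedSectionVars false

namespace Vale.Agent.P011.H519.R2

open Vale.Agent.P011.Two (hh An Uh e₁ IsDiag)
open Vale.Agent.P011.MPQ (Qt nrd Aniso SL1)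
open Vale.Agent.P011.Arith (NF)
open Vale.Agent.P011.Even (inc)
open Vale.Agent.P011.H305 Vale.Agent.P011.H738 Vale.Agent.P011.H271
open Vale.Agent.P011.H63.FB (LSF)

/-- The plane element: `u` acts on the plane spanned over `F(s)` by the unit vector `y` and the
orthogonal vector `w` of length `b` as the quaternion `p + q j`. -/
structure PlaneEltF {k K D : Type} [Field k] [Field K] [DivisionRing D] [StarRing D]
    [Algebra k D] [Algebra K D] (d : kˣ) (s : K) (g : D) {F : Type} [Field F] [Algebra k F]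
    (ι : F →ₐ[k] D) (b : Fˣ) (p₀ p₁ q₀ q₁ : F) (y w : D × D)
    (u : (D × D) ≃ₗ[D] (D × D)) : Prop where
  sym : ∀ x, star (ι x) = ι x
  yy : hh g y y = 1
  yw : hh g y w = 0
  ww : hh g w w = ι b
  nrm : p₀ ^ 2 - algebraMap k F d * p₁ ^ 2 + b * (q₀ ^ 2 - algebraMap k F d * q₁ ^ 2) = 1
  uy : u y = (ι p₀ + ι p₁ * algebraMap K D s) • y + (ι q₀ + ι q₁ * algebraMap K D s) • w
  uw : u w = (-(ι b * (ι q₀ - ι q₁ * algebraMap K D s))) • y +
    (ι p₀ - ι p₁ * algebraMap K D s) • w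

/-- The subgroup `N` contains the elements of the planes which are close to one (level `1 + P`) at
the places where the quaternion algebra of the plane ramifies. -/
def HQF {k K D : Type} [Field k] [Field K] [DivisionRing D] [StarRing D] [Algebra k D]
    [Algebra K D] (d : kˣ) (s : K) (g : D) (N : Subgroup ((D × D) ≃ₗ[D] (D × D))) : Prop :=
  ∀ (F : Type) [Field F] [GFF F] [Algebra k F] (ι : F →ₐ[k] D) (b : Fˣ)
    (p₀ p₁ q₀ q₁ : F) (y w : D × D) (u : (D × D) ≃ₗ[D] (D × D)),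
    PlaneEltF d s g ι b p₀ p₁ q₀ q₁ y w u →
    (∀ ω : Place F, -b ∉ NF (inc k F d) ⊔ LSF ω → ω.abv (2 - 2 * p₀) < 1) → u ∈ N

/-- R6: the elements of `SL_1(Q)` which are one modulo the prime at the ramified places are products
of commutators. -/
def MPabF : Prop :=
  ∀ (F : Type) [Field F] [GFF F] (_ : (2 : F) ≠ 0) (a b : Fˣ) (_ : Aniso a b) (g : SL1 a b)
    (_ : ∀ v : Place F, b ∉ NF a ⊔ LSF v →
      v.abv (nrd (((g : (Qt a b)ˣ) : Qt a b) - 1)) < 1), g ∈ commutator (SL1 a b)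

/-- R7: transitivity on the lines of unit vectors. -/
def TransF : Prop :=
  ∀ (k K D : Type) [Field k] [GFF k] [Field K] [StarRing K] [DivisionRing D] [StarRing D]
    [Algebra k K] [Algebra k D] [Algebra K D] [IsScalarTower k K D]
    (d : kˣ) (s : K) (_ : SetF k K D d s) (n : ℕ) (_ : 2 ≤ n) (_ : finrank K D = n ^ 2)
    (g : D) (_ : star g = g) (_ : An g)
    (N : Subgroup ((D × D) ≃ₗ[D] (D × D))) (_ : ∀ v ∈ Uh g, ∀ x ∈ N, v * x * v⁻¹ ∈ N)
    (_ : HQF d s g N) (y : D × D) (_ : hh g y y = 1),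
    ∃ u ∈ N, ∃ δ : D, δ ≠ 0 ∧ u e₁ = δ • y

/-- R7b: every unitary element of the line extends to an isometry in the subgroup. -/
def MatchedF : Prop :=
  ∀ (k K D : Type) [Field k] [GFF k] [Field K] [StarRing K] [DivisionRing D] [StarRing D]
    [Algebra k K] [Algebra k D] [Algebra K D] [IsScalarTower k K D]
    (d : kˣ) (s : K) (_ : SetF k K D d s) (n : ℕ) (_ : 2 ≤ n) (_ : finrank K D = n ^ 2)
    (g : D) (_ : star g = g) (_ : An g)
    (N : Subgroup ((D × D) ≃ₗ[D] (D × D))) (_ : HQF d s g N) (t : D) (_ : t * star t = 1),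
    ∃ t' : D, ∃ u ∈ N, IsDiag t t' u

/-- The condition on the group `G₀`: it contains the plane elements of every embedded field,
whatever the involution is. -/
def PlaneInF {k K D : Type} [Field k] [Field K] [DivisionRing D] [Algebra k D] [Algebra K D]
    (d : kˣ) (s : K) (U G₀ : Subgroup ((D × D) ≃ₗ[D] (D × D))) : Prop :=
  ∀ (F : Type) [Field F] [GFF F] [Algebra k F] (ι : F →ₐ[k] D) (b : Fˣ)
    (p₀ p₁ q₀ q₁ : F) (y w : D × D) (u : (D × D) ≃ₗ[D] (D × D)),
    (∀ x, ∃ a c : D, x = a • y + c • w) →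
    p₀ ^ 2 - algebraMap k F d * p₁ ^ 2 + b * (q₀ ^ 2 - algebraMap k F d * q₁ ^ 2) = 1 →
    u y = (ι p₀ + ι p₁ * algebraMap K D s) • y + (ι q₀ + ι q₁ * algebraMap K D s) • w →
    u w = (-(ι b * (ι q₀ - ι q₁ * algebraMap K D s))) • y +
      (ι p₀ - ι p₁ * algebraMap K D s) • w → u ∈ U → u ∈ G₀

end Vale.Agent.P011.H519.R2
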