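import Mathlib

/-!
# The integers of the completion of a Dedekind domain at a prime are adically complete, Hensel's lemma
-/

open IsDedekindDomain HeightOneSpectrum Polynomial WithZero

namespace Vale.Agent.P011.H519

section complete

variable {A : Type*} [CommRing A] [IsDedekindDomain A] (K : Type*) [Field K] [Algebra A K]
  [IsFractionRing A K] (v : HeightOneSpectrum A)

theorem exists_unif : ∃ π : v.adicCompletionIntegers K,
    Valued.v (π : v.adicCompletion K) = exp (-1 : ℤ) := by
  obtain ⟨x, hx⟩ := v.intValuation_exists_uniformizer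
  refine ⟨algebraMap A _ x, ?_⟩
  have h := valuedAdicCompletion_eq_valuation (K := K) v x
  rw [valuation_of_algebraMap, hx] at h
  exact h

variable {K v}

theorem mem_span_pow {π : v.adicCompletionIntegers K}
    (hπ : Valued.v (π : v.adicCompletion K) = exp (-1 : ℤ)) (n : ℕ)
    (x : v.adicCompletionIntegers K) :
    x ∈ Ideal.span {π} ^ n ↔ Valued.v (x : v.adicCompletion K) ≤ exp (-(n : ℤ)) := by
  rw [Ideal.span_singleton_pow, Ideal.mem_span_singleton,
    (adicCompletionIntegers.integers K v).dvd_iff_le]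
  change Valued.v (x : v.adicCompletion K) ≤ Valued.v ((π ^ n : v.adicCompletionIntegers K) :
    v.adicCompletion K) ↔ _
  rw [SubmonoidClass.coe_pow, map_pow, hπ, ← exp_nsmul]
  simp

theorem smul_top_eq (I : Ideal (v.adicCompletionIntegers K)) :
    (I • ⊤ : Submodule (v.adicCompletionIntegers K) (v.adicCompletionIntegers K)) = I := by
  simp

/-- A sequence with `v (f m - f n) ≤ exp (-m)` for `m ≤ n` converges. -/
theorem exists_lim (f : ℕ → v.adicCompletion K)
    (hf : ∀ m n, m ≤ n → Valued.v (f m - f n) ≤ exp (-(m : ℤ))) :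
    ∃ L : v.adicCompletion K, ∀ n, Valued.v (f n - L) ≤ exp (-(n : ℤ)) := by
  -- small radius
  have hrad : ∀ γ : (MonoidWithZeroHom.ValueGroup₀
      (.ofClass (Valued.v : Valuation (v.adicCompletion K) ℤᵐ⁰)))ˣ, ∃ N : ℕ,
      ∀ x : v.adicCompletion K, Valued.v x ≤ exp (-(N : ℤ)) → Valued.v.restrict x < γ.1 := by
    intro γ
    obtain ⟨e, he⟩ : ∃ e : ℤᵐ⁰, e = MonoidWithZeroHom.ValueGroup₀.embedding γ.1 := ⟨_, rfl⟩
    have he0 : e ≠ 0 := by
      rw [he]
      simp
    refine ⟨(1 - log e).toNat, fun x hx => ?_⟩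
    rw [Valuation.restrict_lt_iff_lt_embedding, ← he]
    refine hx.trans_lt ?_
    rw [← exp_log he0, exp_lt_exp]
    have := Int.self_le_toNat (1 - log e)
    rw [exp_log he0]
    omega
  have hc : CauchySeq f := by
    rw [(Valued.hasBasis_uniformity (v.adicCompletion K) ℤᵐ⁰).cauchySeq_iff']
    rintro γ -
    obtain ⟨N, hN⟩ := hrad γ
    refine ⟨N, fun n hn => ?_⟩
    apply hN
    exact hf N n hn
  obtain ⟨L, hL⟩ := cauchySeq_tendsto_of_complete hc
  refine ⟨L, fun n => ?_⟩
  have hnear : ∀ᶠ m in Filter.atTop, Valued.v (f m - L) ≤ exp (-(n : ℤ)) := by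
    obtain ⟨z, hz⟩ := valuedAdicCompletion_surjective K v (exp (-(n : ℤ)))
    have hz0 : (Valued.v z : ℤᵐ⁰) ≠ 0 := by rw [hz]; exact exp_ne_zero
    have hz' : Valued.v.restrict z ≠ 0 := by simpa using hz0
    have hn : {y : v.adicCompletion K | Valued.v (y - L) ≤ exp (-(n : ℤ))} ∈ nhds L := by
      refine Valued.mem_nhds.mpr ⟨Units.mk0 _ hz', fun y hy => ?_⟩
      have h2 := (Valuation.restrict_lt_iff (v := Valued.v)).mp hy
      rw [hz] at h2
      exact h2.le
    exact hL hn
  obtain ⟨m, hm1, hm2⟩ := (hnear.and (Filter.eventually_ge_atTop n)).exists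
  have h1 : f n - L = (f n - f m) + (f m - L) := by ring
  rw [h1]
  exact (Valuation.map_add _ _ _).trans (max_le (hf n m hm2) hm1)

theorem isAdicComplete {π : v.adicCompletionIntegers K}
    (hπ : Valued.v (π : v.adicCompletion K) = exp (-1 : ℤ)) :
    IsAdicComplete (Ideal.span {π}) (v.adicCompletionIntegers K) := by
  refine @IsAdicComplete.mk _ _ _ _ _ _ ⟨fun x hx => ?_⟩ ⟨fun f hf => ?_⟩
  · by_contra h0
    have h1 : (Valued.v (x : v.adicCompletion K) : ℤᵐ⁰) ≠ 0 := by
      rw [Valuation.ne_zero_iff]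
      exact fun h => h0 (Subtype.ext h)
    have h2 := hx (1 - log (Valued.v (x : v.adicCompletion K) : ℤᵐ⁰)).toNat
    rw [smul_top_eq, SModEq.zero, mem_span_pow hπ, ← exp_log h1, exp_le_exp, exp_log h1] at h2
    have := Int.self_le_toNat (1 - log (Valued.v (x : v.adicCompletion K) : ℤᵐ⁰))
    omega
  · obtain ⟨L, hL⟩ := exists_lim (fun n => (f n : v.adicCompletion K)) (by
      intro m n hmn
      have h1 := hf hmn
      rw [smul_top_eq, SModEq.sub_mem, mem_span_pow hπ] at h1
      exact h1)
    have hL1 : L ∈ v.adicCompletionIntegers K := by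
      have h2 := hL 0
      have h3 : L = f 0 - (f 0 - L) := by ring
      rw [h3]
      refine sub_mem (f 0).2 ?_
      rw [mem_adicCompletionIntegers]
      simpa using h2
    refine ⟨⟨L, hL1⟩, fun n => ?_⟩
    rw [smul_top_eq, SModEq.sub_mem, mem_span_pow hπ]
    exact hL n

/-- Hensel's lemma for a polynomial with coefficients in the Dedekind domain. -/
theorem hensel {f : A[X]} (hf : f.Monic) {a : A} (h0 : f.eval a ∈ v.asIdeal)
    (h1 : f.derivative.eval a ∉ v.asIdeal) :
    ∃ y : v.adicCompletionIntegers K, aeval y f = 0 ∧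
      Valued.v ((y : v.adicCompletion K) - algebraMap A (v.adicCompletion K) a) < 1 := by
  obtain ⟨π, hπ⟩ := exists_unif K v
  have hc := isAdicComplete hπ
  have hint : ∀ x : v.adicCompletionIntegers K, x ∈ Ideal.span {π} ↔
      Valued.v (x : v.adicCompletion K) < 1 := by
    intro x
    have h2 := mem_span_pow hπ 1 x
    rw [pow_one] at h2
    rw [h2, ← exp_zero]
    constructor
    · intro h
      refine h.trans_lt ?_
      rw [exp_lt_exp]; norm_num
    · intro h
      by_cases hx : (Valued.v (x : v.adicCompletion K) : ℤᵐ⁰) = 0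
      · rw [hx]; exact zero_le
      · rw [← exp_log hx, exp_lt_exp] at h
        rw [← exp_log hx, exp_le_exp]
        push_cast
        omega
  have hval : ∀ r : A, Valued.v ((algebraMap A (v.adicCompletionIntegers K) r :
      v.adicCompletionIntegers K) : v.adicCompletion K) = v.valuation K (algebraMap A K r) :=
    fun r => valuedAdicCompletion_eq_valuation (K := K) v r
  obtain ⟨y, hy, hy2⟩ := HenselianRing.is_henselian (R := v.adicCompletionIntegers K)
    (I := Ideal.span {π}) (f.map (algebraMap A _)) (hf.map _)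
    (algebraMap A (v.adicCompletionIntegers K) a) (by
      rw [eval_map_apply, hint, hval, valuation_lt_one_iff_mem]
      exact h0) (by
      rw [derivative_map, eval_map_apply]
      apply IsUnit.map
      rw [adicCompletionIntegers.isUnit_iff_valued_eq_one, hval]
      apply le_antisymm (valuation_le_one v _)
      rw [← not_lt, valuation_lt_one_iff_mem]
      exact h1)
  refine ⟨y, ?_, ?_⟩
  · rw [IsRoot, eval_map_algebraMap] at hy
    exact hy
  · rw [hint] at hy2
    exact hy2

end complete

end Vale.Agent.P011.H519
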