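import Vale.Agent.P011.H519.Asm3
import Vale.Agent.P011.H305.Three2
import Vale.Agent.P011.H74.U.T3U

/-!
# Function fields: degree three and algebras with zero divisors
-/

open Module TensorProduct Topology

set_option linter.unusedSectionVars false

namespace Vale.Agent.P011.H519.R2

open Vale.Agent.P011.H738 (Place SUA Anis IsGlobalFunctionField)
open Vale.Agent.P011.H732F (GK HA IsDiagonal IsOpenPreimage Adiv)

variable {k K A Ω : Type} [Field k] [Field K] [StarRing K] [Ring A] [StarRing A]
  [Algebra k K] [Algebra k A] [Algebra K A] [IsScalarTower k K A] [StarModule K A] {n : ℕ}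
  [Field Ω] [Algebra K Ω]

/-- The preimages of the open subgroups of the trivial group. -/
theorem eq_top_of_open {f : A →ₐ[K] Matrix (Fin n) (Fin n) Ω} {S : Set (Place k)}
    {δ : GK f →* HA A n S} (hS : ∀ v, v ∉ S) {N : Subgroup (GK f)} (h : IsOpenPreimage δ N) :
    N = ⊤ := by
  obtain ⟨W, -, rfl, -⟩ := h
  rw [eq_top_iff]
  intro g _
  have h1 : δ g = 1 := funext fun v => absurd v.2 (hS v)
  change δ g ∈ W
  rw [h1]
  exact W.one_mem

/-- **The conjecture for all anisotropic outer forms of degree three** over a global function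
field of odd characteristic: all subgroups of finite index. -/
theorem three_allU (hk : IsGlobalFunctionField k) (hA : Anis k K A 3) (h2 : (2 : k) ≠ 0)
    (f : A →ₐ[K] Matrix (Fin 3) (Fin 3) Ω) :
    ∃ δ : GK f →* HA A 3 (Adiv k K A), IsDiagonal δ ∧ DenseRange δ ∧
      ∀ M : Subgroup (GK f), M.index ≠ 0 → IsOpenPreimage δ M := by
  have hgff : H271.GFF k := H271.gff_of_isGlobal hk
  have hsim := hA.simple
  let _ : DivisionRing A := DivisionRing.ofIsUnitOrEqZero fun x => by
    by_cases hx : x = 0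
    · exact Or.inr hx
    · exact Or.inl (H74.isUnit_of_odd hA (by decide) hx)
  have hfk : FiniteDimensional k K := (H519.quad hA.fixed hA.star_ne).1
  have hfA : FiniteDimensional K A := FiniteDimensional.of_finrank_pos (by
    rw [hA.finrank_eq]
    positivity)
  have hfkA : FiniteDimensional k A := Module.Finite.trans K A
  exact H305.all_of_solvF hk hA le_rfl f (finBasis k A)
    (H74.solvAtF_threeU hk hA h2 f (finBasis k A))

/-- **The conjecture** for the algebras with zero divisors. -/
theorem div_all (hk : IsGlobalFunctionField k) (hA : Anis k K A n) (hn : 3 ≤ n)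
    (h2 : (2 : k) ≠ 0) (hdiv : ∃ x : A, x ≠ 0 ∧ ¬ IsUnit x)
    (f : A →ₐ[K] Matrix (Fin n) (Fin n) Ω) :
    ∃ δ : GK f →* HA A n (Adiv k K A), IsDiagonal δ ∧ DenseRange δ ∧
      ∀ M : Subgroup (GK f), M.index ≠ 0 → IsOpenPreimage δ M := by
  have hKf : FiniteDimensional k K := (H519.quad hA.fixed hA.star_ne).1
  have hAf : FiniteDimensional K A := FiniteDimensional.of_finrank_pos (by
    rw [hA.finrank_eq]; positivity)
  have hAk : FiniteDimensional k A := Module.Finite.trans K A
  exact H305.all_of_solvF hk hA hn f (Module.finBasis k A)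
    (H518.R8.solvAtF_of_topG0 topG0 hk hA hn h2 hdiv f _)

/-- **The conjecture** in degree three and for the algebras with zero divisors. -/
theorem small_all (hk : IsGlobalFunctionField k) (hA : Anis k K A n) (hn : 3 ≤ n)
    (h2 : (2 : k) ≠ 0) (h : n = 3 ∨ ∃ x : A, x ≠ 0 ∧ ¬ IsUnit x)
    (f : A →ₐ[K] Matrix (Fin n) (Fin n) Ω) :
    ∃ δ : GK f →* HA A n (Adiv k K A), IsDiagonal δ ∧ DenseRange δ ∧
      ∀ M : Subgroup (GK f), M.index ≠ 0 → IsOpenPreimage δ M ∧
        ((∃ x : A, x ≠ 0 ∧ ¬ IsUnit x) → M = ⊤) := by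
  have key : ∃ δ : GK f →* HA A n (Adiv k K A), IsDiagonal δ ∧ DenseRange δ ∧
      ∀ M : Subgroup (GK f), M.index ≠ 0 → IsOpenPreimage δ M := by
    rcases h with rfl | hdiv
    · exact three_allU hk hA h2 f
    · exact div_all hk hA hn h2 hdiv f
  obtain ⟨δ, h1, h2', h3⟩ := key
  refine ⟨δ, h1, h2', fun M hM => ⟨h3 M hM, fun hdiv => ?_⟩⟩
  exact eq_top_of_open (fun v hv => H518.R8.adiv_empty hA (by omega) hdiv v hv) (h3 M hM)

end Vale.Agent.P011.H519.R2
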