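import Vale.Agent.P011.H519.R7c

/-!
# Rank two over function fields: the reduced norm of a plane element is one
-/

open Module Matrix Polynomial

set_option linter.unusedSectionVars false

namespace Vale.Agent.P011.H519.R2

open Vale.Agent.P011.Two (hh An Uh IsDiag)
open Vale.Agent.P011.H305 Vale.Agent.P011.H738 Vale.Agent.P011.H271
open Vale.Agent.P011S (redNorm)

variable {k K D Ω : Type} [Field k] [Field K] [StarRing K]
  [DivisionRing D] [StarRing D] [Algebra k K] [Algebra k D] [Algebra K D] [IsScalarTower k K D]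
  {d : kˣ} {s : K} [Field Ω] [Algebra K Ω] {n : ℕ} (f : D →ₐ[K] Matrix (Fin n) (Fin n) Ω)

/-- The block determinant of an isometry of `D × D`. -/
noncomputable def bdet (u : (D × D) ≃ₗ[D] (D × D)) : Ω :=
  (Matrix.fromBlocks (f (u (1, 0)).1) (f (u (1, 0)).2) (f (u (0, 1)).1) (f (u (0, 1)).2)).det

omit [StarRing K] [StarRing D] in
/-- The block determinant is the reduced norm of the matrix. -/
theorem blocks_det (A B C E : D) : (Matrix.fromBlocks (f A) (f B) (f C) (f E)).det =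
    redNorm f (Fin 2) !![A, B; C, E] := by
  let e : Fin n ⊕ Fin n ≃ Fin 2 × Fin n :=
    (Equiv.boolProdEquivSum (Fin n)).symm.trans (finTwoEquiv.symm.prodCongr (Equiv.refl _))
  have h1 : Matrix.fromBlocks (f A) (f B) (f C) (f E) =
      ((Matrix.compRingEquiv (Fin 2) (Fin n) Ω)
        (f.toRingHom.mapMatrix !![A, B; C, E])).submatrix e e := by
    ext i j
    rcases i with i | i <;> rcases j with j | j <;> rfl
  rw [h1, Matrix.det_submatrix_equiv_self]
  rfl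

omit [StarRing K] [StarRing D] in
theorem u_apply' (u : (D × D) ≃ₗ[D] (D × D)) (c : D × D) :
    u c = (c.1 * (u (1, 0)).1 + c.2 * (u (0, 1)).1, c.1 * (u (1, 0)).2 + c.2 * (u (0, 1)).2) := by
  have h1 : c = c.1 • ((1 : D), (0 : D)) + c.2 • ((0 : D), (1 : D)) := by
    ext <;> simp
  nth_rewrite 1 [h1]
  rw [map_add, map_smul, map_smul]
  rfl

omit [StarRing K] [StarRing D] in
theorem bdet_mul (u v : (D × D) ≃ₗ[D] (D × D)) : bdet f (u * v) = bdet f v * bdet f u := by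
  unfold bdet
  rw [blocks_det, blocks_det, blocks_det, ← map_mul]
  congr 1
  have h1 : (u * v) (1, 0) = u (v (1, 0)) := rfl
  have h2 : (u * v) (0, 1) = u (v (0, 1)) := rfl
  rw [h1, h2, u_apply' u (v (1, 0)), u_apply' u (v (0, 1)), Matrix.mul_fin_two]

omit [StarRing K] [StarRing D] in
theorem bdet_one : bdet f (1 : (D × D) ≃ₗ[D] (D × D)) = 1 := by
  unfold bdet
  rw [blocks_det]
  have h : (!![((1 : (D × D) ≃ₗ[D] (D × D)) (1, 0)).1, ((1 : (D × D) ≃ₗ[D] (D × D)) (1, 0)).2;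
      ((1 : (D × D) ≃ₗ[D] (D × D)) (0, 1)).1, ((1 : (D × D) ≃ₗ[D] (D × D)) (0, 1)).2] :
      Matrix (Fin 2) (Fin 2) D) = 1 := by
    rw [Matrix.one_fin_two]
    rfl
  rw [h, map_one]

omit [StarRing K] [StarRing D] in
theorem redNorm_map' {R : Type} [CommRing R] (ψ : R →+* D) {μ : Type} [Fintype μ]
    [DecidableEq μ] (M : Matrix μ μ R) : redNorm f μ (M.map ψ) = (f (ψ M.det)).det :=
  (Matrix.det_det M (f.toRingHom.comp ψ)).symm

omit [StarRing K] [StarRing D] in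
theorem redNorm_plane' (hs : s ^ 2 = algebraMap k K d) {F : Type} [Field F]
    [Algebra k F] (ι : F →ₐ[k] D) (b p₀ p₁ q₀ q₁ : F)
    (hnrm : p₀ ^ 2 - algebraMap k F d * p₁ ^ 2 + b * (q₀ ^ 2 - algebraMap k F d * q₁ ^ 2) = 1) :
    redNorm f (Fin 2) !![ι p₀ + ι p₁ * algebraMap K D s, ι q₀ + ι q₁ * algebraMap K D s;
      -(ι b * (ι q₀ - ι q₁ * algebraMap K D s)), ι p₀ - ι p₁ * algebraMap K D s] = 1 := by
  obtain ⟨S, hS⟩ : ∃ S, S = algebraMap K D s := ⟨_, rfl⟩
  have hSc : ∀ x : F, Commute (ι.toRingHom x) S := by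
    intro x
    rw [hS]
    exact (Algebra.commutes s _).symm
  let ψ : F[X] →+* D := Polynomial.eval₂RingHom' ι.toRingHom S hSc
  have hψC : ∀ x : F, ψ (C x) = ι x := fun x => Polynomial.eval₂_C _ _
  have hψX : ψ X = S := Polynomial.eval₂_X _ _
  have hSS : S ^ 2 = ι (algebraMap k F d) := by
    rw [hS, ← map_pow, hs, ← IsScalarTower.algebraMap_apply, AlgHom.commutes]
  obtain ⟨M, hM⟩ : ∃ M : Matrix (Fin 2) (Fin 2) F[X], M =
      !![C p₀ + C p₁ * X, C q₀ + C q₁ * X; -(C b * (C q₀ - C q₁ * X)), C p₀ - C p₁ * X] :=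
    ⟨_, rfl⟩
  have hMψ : M.map ψ = !![ι p₀ + ι p₁ * S, ι q₀ + ι q₁ * S;
      -(ι b * (ι q₀ - ι q₁ * S)), ι p₀ - ι p₁ * S] := by
    rw [hM]
    ext i j
    fin_cases i <;> fin_cases j <;> simp [hψC, hψX]
  have hdet : M.det = C (p₀ ^ 2 + b * q₀ ^ 2) - C (p₁ ^ 2 + b * q₁ ^ 2) * X ^ 2 := by
    rw [hM, Matrix.det_fin_two_of]
    simp only [map_add, map_mul, map_pow]
    ring
  rw [← hS, ← hMψ, redNorm_map', hdet, map_sub, map_mul, map_pow, hψC, hψC, hψX, hSS, ← map_mul,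
    ← map_sub]
  have e : p₀ ^ 2 + b * q₀ ^ 2 - (p₁ ^ 2 + b * q₁ ^ 2) * algebraMap k F d = 1 := by
    linear_combination hnrm
  rw [e, map_one, map_one, Matrix.det_one]

/-- **The reduced norm of a plane element is one.** -/
theorem planeElt_nrd (hS : SetF k K D d s) {g : D} (hg : star g = g) (han : An g) {F : Type}
    [Field F] [Algebra k F] {ι : F →ₐ[k] D} {b : Fˣ} {p₀ p₁ q₀ q₁ : F} {y w : D × D}
    {u : (D × D) ≃ₗ[D] (D × D)} (h : PlaneEltF d s g ι b p₀ p₁ q₀ q₁ y w u) :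
    (Matrix.fromBlocks (f (u (1, 0)).1) (f (u (1, 0)).2) (f (u (0, 1)).1)
      (f (u (0, 1)).2)).det = 1 := by
  have hy : y ≠ 0 := by
    rintro rfl
    have := h.yy
    simp [hh] at this
  have hw : w ≠ 0 := by
    rintro rfl
    have h0 : ι (b : F) ≠ 0 := by
      rw [ne_eq, map_eq_zero]
      exact b.ne_zero
    apply h0
    rw [← h.ww]
    simp [hh]
  obtain ⟨E, hE⟩ := exists_basis hg han hy hw h.yw
  obtain ⟨m, hm⟩ : ∃ m : (D × D) ≃ₗ[D] (D × D), m = E⁻¹ * u * E := ⟨_, rfl⟩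
  have hEi : ∀ x, E⁻¹ (E x) = x := fun x => E.symm_apply_apply x
  have hEy : E (1, 0) = y := by rw [hE, one_smul, zero_smul, add_zero]
  have hEw : E (0, 1) = w := by rw [hE, one_smul, zero_smul, zero_add]
  have h1 : m (1, 0) = (ι p₀ + ι p₁ * algebraMap K D s, ι q₀ + ι q₁ * algebraMap K D s) := by
    rw [hm]
    change E⁻¹ (u (E (1, 0))) = _
    rw [hEy, h.uy, ← hE, hEi]
  have h2 : m (0, 1) = (-(ι b * (ι q₀ - ι q₁ * algebraMap K D s)),
      ι p₀ - ι p₁ * algebraMap K D s) := by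
    rw [hm]
    change E⁻¹ (u (E (0, 1))) = _
    rw [hEw, h.uw, ← hE, hEi]
  have h3 : bdet f m = 1 := by
    unfold bdet
    rw [blocks_det, h1, h2]
    exact redNorm_plane' f hS.sq ι b p₀ p₁ q₀ q₁ h.nrm
  have h4 : bdet f m = bdet f u := by
    rw [hm, bdet_mul, bdet_mul, mul_comm, mul_comm (bdet f u), mul_right_comm, ← bdet_mul,
      mul_inv_cancel, bdet_one, one_mul]
  rw [h4] at h3
  exact h3

end Vale.Agent.P011.H519.R2
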