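import Vale.Agent.P011.H699.G0
import Vale.Agent.P011.H519.R7d
import Vale.Agent.P011.H704.R6.Bridge

/-!
# Planes over function fields: the elements of the planes
-/

open Module Matrix

set_option linter.unusedSectionVars false

namespace Vale.Agent.P011.H519.R2

open Vale.Agent.P011.Two (hh An Uh e₁ IsDiag)
open Vale.Agent.P011.H699 (G0 mem_G0 nrd2)
open Vale.Agent.P011.H305 Vale.Agent.P011.H738 Vale.Agent.P011.H271

/-- The property `HQF` for the subgroups which contain the commutators. -/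
theorem hqF_of_comm {k K D Ω : Type} [Field k] [GFF k] [Field K] [StarRing K]
    [DivisionRing D] [StarRing D] [Algebra k K] [Algebra k D] [Algebra K D]
    [IsScalarTower k K D] [Field Ω] [Algebra K Ω] {d : kˣ} {s : K} (hS : SetF k K D d s) {n : ℕ}
    (f : D →ₐ[K] Matrix (Fin n) (Fin n) Ω) {g : D} (hg : star g = g) (han : An g)
    (Q : Subgroup ((D × D) ≃ₗ[D] (D × D)))
    (hab : ∀ a ∈ G0 f g, ∀ b ∈ G0 f g, a * b * a⁻¹ * b⁻¹ ∈ Q) : HQF d s g Q :=
  hqF_of_ab H704.R6.mPabF hS hg han (G0 f g) Q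
    (fun F _ _ _ ι b p₀ p₁ q₀ q₁ y w u hu =>
      ⟨planeElt_mem hS hg han hu, planeElt_nrd f hS hg han hu⟩) hab

end Vale.Agent.P011.H519.R2
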