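import Vale.Agent.P011.H519.Asm2
import Vale.Agent.P011.H518.R8.Top0
import Vale.Agent.P011.H124.R4f
import Vale.Agent.P011.H698.R7Main
import Vale.Agent.P011.H948.StepABF

/-!
# Planes over function fields: the special unitary group has no normal subgroup of prime index
-/

open Module Matrix

set_option linter.unusedSectionVars false

namespace Vale.Agent.P011.H519.R2

open Vale.Agent.P011.Two (hh An Uh e₁ IsDiag)
open Vale.Agent.P011.H699 (G0 mem_G0 nrd2)
open Vale.Agent.P011.H305 Vale.Agent.P011.H738 Vale.Agent.P011.H271

/-- The special unitary groups of the anisotropic hermitian planes over division algebras over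
global function fields of characteristic not two have no normal subgroup of prime index. -/
theorem topG0 : H518.R8.TopG0 := by
  intro k K D Ω _ _ _ _ _ _ _ _ _ _ _ _ hk d s hS n hn hdeg f g hg han Q hQ hQn
  have hgff := gff_of_isGlobal hk
  refine H124.R4.not_prime_two hS hdeg hg han f (H948.SB.stepABF hk hS hn hdeg) ?_ hQ hQn
  intro Q' hQ' hab hfi x hx
  refine H698.R7.transQ hk hS hn hdeg hg han f hQ' (fun a ha y hy => ?_) hfi
    (hqF_of_comm hS f hg han Q' hab) hx
  have h1 := Q'.mul_mem (hab a ha y (hQ' hy)) hy
  rwa [inv_mul_cancel_right] at h1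

end Vale.Agent.P011.H519.R2
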