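import Vale.Agent.P011.H519.FFAll
import Vale.Agent.P011.H974.DblF

/-!
# Function fields of characteristic not two: all degrees

The conjecture for all anisotropic outer forms of type `A`, from the solvable step for the
division algebras of odd degree and the two inputs of the doubling step.
-/

open Module TensorProduct Topology

set_option linter.unusedSectionVars false

namespace Vale.Agent.P011.H519.R2

open Vale.Agent.P011.H738 (Place SUA Anis IsGlobalFunctionField)
open Vale.Agent.P011.H732F (GK HA IsDiagonal IsOpenPreimage Adiv)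
open Vale.Agent.P011.H974.R8 (SolvF MPF ExTF AbF solv_double mpf_double)

/-- **The solvable step in every degree** from the odd degrees and the doubling. -/
theorem solvF_all (hodd : ∀ n, 3 ≤ n → Odd n → SolvF n) (hEx : ∀ m, 2 ≤ m → ExTF m)
    (hAb : ∀ m, 2 ≤ m → AbF m) {n : ℕ} (hn : 3 ≤ n) : SolvF n := by
  rcases Nat.even_or_odd n with he | ho
  · obtain ⟨m, rfl⟩ := he
    rw [← two_mul]
    exact solv_double (by omega) (hEx m (by omega)) (hAb m (by omega))
  · exact hodd n hn ho

variable {k K A Ω : Type} [Field k] [Field K] [StarRing K] [Ring A] [StarRing A]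
  [Algebra k K] [Algebra k A] [Algebra K A] [IsScalarTower k K A] [StarModule K A] {n : ℕ}
  [Field Ω] [Algebra K Ω]

/-- **The conjecture** for the division algebras, from the solvable step. -/
theorem divn_all (hk : IsGlobalFunctionField k) (hA : Anis k K A n) (hn : 3 ≤ n)
    (h2 : (2 : k) ≠ 0) (hS : SolvF n) (hu : ∀ x : A, x ≠ 0 → IsUnit x)
    (f : A →ₐ[K] Matrix (Fin n) (Fin n) Ω) :
    ∃ δ : GK f →* HA A n (Adiv k K A), IsDiagonal δ ∧ DenseRange δ ∧
      ∀ M : Subgroup (GK f), M.index ≠ 0 → IsOpenPreimage δ M := by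
  have hgff : H271.GFF k := H271.gff_of_isGlobal hk
  have hsim := hA.simple
  let _ : DivisionRing A := DivisionRing.ofIsUnitOrEqZero fun x => by
    by_cases hx : x = 0
    · exact Or.inr hx
    · exact Or.inl (hu x hx)
  have hfk : FiniteDimensional k K := (H519.quad hA.fixed hA.star_ne).1
  have hfA : FiniteDimensional K A := FiniteDimensional.of_finrank_pos (by
    rw [hA.finrank_eq]
    positivity)
  have hfkA : FiniteDimensional k A := Module.Finite.trans K A
  obtain ⟨d, s, hF⟩ := H305.exists_setF hA (by omega) h2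
  exact H305.all_of_solvF hk hA hn f (finBasis k A)
    (hS k K A d s hF hA.finrank_eq Ω f _ (finBasis k A))

/-- **The conjecture for all anisotropic outer forms of type `A`** over a global function field
of characteristic not two, from the solvable step for division algebras. -/
theorem gen_all (hS : ∀ n, 3 ≤ n → SolvF n) (hk : IsGlobalFunctionField k)
    (hA : Anis k K A n) (hn : 3 ≤ n) (h2 : (2 : k) ≠ 0)
    (f : A →ₐ[K] Matrix (Fin n) (Fin n) Ω) :
    ∃ δ : GK f →* HA A n (Adiv k K A), IsDiagonal δ ∧ DenseRange δ ∧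
      ∀ M : Subgroup (GK f), M.index ≠ 0 → IsOpenPreimage δ M ∧
        ((∃ x : A, x ≠ 0 ∧ ¬ IsUnit x) → M = ⊤) := by
  by_cases hdiv : ∃ x : A, x ≠ 0 ∧ ¬ IsUnit x
  · exact small_all hk hA hn h2 (Or.inr hdiv) f
  · obtain ⟨δ, h1, h2', h3⟩ := divn_all hk hA hn h2 (hS n hn)
      (fun x hx => by
        by_contra hu
        exact hdiv ⟨x, hx, hu⟩) f
    exact ⟨δ, h1, h2', fun M hM => ⟨h3 M hM, fun h => absurd h hdiv⟩⟩

end Vale.Agent.P011.H519.R2
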