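import Vale.Agent.P011.H465.NF

/-!
**Roots close to one.** At the places of `Tdiv` every unitary element of reduced norm one which is
close enough to one is a limit of `m`-th powers of unitary elements of reduced norm one.
-/

open NumberField IsDedekindDomain Module Filter
open scoped TensorProduct commutatorElement

set_option linter.unusedSectionVars false

namespace Vale.Agent.P011.H519.Hull

open Vale.Agent.P011.Arith Vale.Agent.P011.Even Vale.Agent.P011.Pow Vale.Agent.P011.Two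
  Vale.Agent.P011.One Vale.Agent.P011.H465
open Vale.Agent.P011.W (HasNrd)

variable {k K D : Type} [Field k] [NumberField k] [Field K] [NumberField K] [StarRing K]
  [DivisionRing D] [StarRing D] [Algebra k K] [Algebra k D] [Algebra K D] [IsScalarTower k K D]
  {d : kˣ} {s : K} {Ω : Type} [Field Ω] [Algebra K Ω] {n : ℕ}

/-- **Roots of unitary elements close to one at the places of `Tdiv`.** -/
theorem root_near (hS : Setting k K D d s) (hn : 2 ≤ n) (hdeg : finrank K D = n ^ 2)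
    (f : D →ₐ[K] Matrix (Fin n) (Fin n) Ω) {N : ℕ} (B : Basis (Fin N) k D) {m : ℕ} (hm : 0 < m) :
    ∃ ε : ℝ, 0 < ε ∧ ∀ h ∈ SUD f, (∀ p ∈ Tdiv k K D, Even.nm B p ((h : D) - 1) < ε) →
      ∀ δ : ℝ, 0 < δ → ∃ y ∈ SUD f, ∀ p ∈ Tdiv k K D,
        Even.nm B p (((h⁻¹ * y ^ m : Dˣ) : D) - 1) < δ := by
  classical
  have := hS.fin
  have := hS.cen
  have hn0 : 0 < n := by omega
  have hcK : CharZero K := charZero_of_injective_algebraMap (algebraMap k K).injective
  have hcD : CharZero D := charZero_of_injective_algebraMap (algebraMap K D).injective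
  have hTf : (Tdiv k K D).Finite := tdiv_finite hn hdeg
  rcases (Tdiv k K D).eq_empty_or_nonempty with hT | hT
  · refine ⟨1, one_pos, fun h hh _ δ _ => ⟨1, (SUD f).one_mem, fun p hp => ?_⟩⟩
    rw [hT] at hp
    exact hp.elim
  obtain ⟨nrd, hnrd, hna, hns, hnf⟩ := exists_nrdHom hS hdeg f
  have hGN : ∀ g : Dˣ, g ∈ GN nrd ↔ g ∈ SUD f := fun g => by
    rw [mem_GN, mem_SUD, ← hnf, mem_UD]
    refine and_congr_right fun _ => ⟨fun h => by rw [h, map_one], fun h => ?_⟩
    exact (algebraMap K Ω).injective (by rw [h, map_one])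
  -- the absolute values
  have _ : Nonempty (AbsoluteValue D ℝ) := by
    obtain ⟨p, hp⟩ := hT
    exact ⟨(exists_av_place hS hn0 hdeg B hp).choose⟩
  choose! A hu hlin hk h1 hst hnm hnm' hexp using
    fun (p : Pl k) (hp : p ∈ Tdiv k K D) => exists_av_place hS hn0 hdeg B hp
  let ι := {p : Pl k // p ∈ Tdiv k K D} × Bool
  have _ : Finite {p : Pl k // p ∈ Tdiv k K D} := hTf.to_subtype
  have _ : Nonempty {p : Pl k // p ∈ Tdiv k K D} := hT.to_subtype
  let ν : ι → AbsoluteValue D ℝ := fun i => if i.2 then starAbv (A i.1) else A i.1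
  have hνt : ∀ (p : {p : Pl k // p ∈ Tdiv k K D}) (x : D), ν (p, true) x = A p (star x) :=
    fun p x => rfl
  have hνf : ∀ (p : {p : Pl k // p ∈ Tdiv k K D}) (x : D), ν (p, false) x = A p x :=
    fun p x => rfl
  -- unitary elements
  have hun : ∀ (g : Dˣ), g ∈ UD D → ∀ ε : ℝ, ε ≤ 1 → ∀ p : {p : Pl k // p ∈ Tdiv k K D},
      A p ((g : D) - 1) < ε → ∀ b : Bool, ν (p, b) ((g : D) - 1) < ε := by
    intro g hg ε hε p hlt b
    cases b
    · exact hlt
    · rw [hνt, hst p p.2 g hg (hlt.trans_le hε)]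
      exact hlt
  have hUuni : ∀ i : ι, ∀ x y, ν i (x + y) ≤ max (ν i x) (ν i y) := by
    rintro ⟨p, b⟩ x y
    cases b
    · exact hu p p.2 x y
    · rw [hνt, hνt, hνt, star_add]
      exact hu p p.2 _ _
  have hss : ∀ i : ι, ∃ j, ∀ x, ν i (star x) = ν j x := by
    rintro ⟨p, b⟩
    cases b
    · exact ⟨(p, true), fun x => rfl⟩
    · exact ⟨(p, false), fun x => by rw [hνt, hνf, star_star]⟩
  have hlinν : ∀ (Λ : D →ₗ[K] K) (i : ι), ∃ C : ℝ, ∀ x,
      ν i (algebraMap K D (Λ x)) ≤ C * ν i x := by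
    rintro Λ ⟨p, b⟩
    cases b
    · exact hlin p p.2 Λ
    · let Λ' : D →ₗ[K] K :=
        { toFun := fun x => star (Λ (star x))
          map_add' := fun x y => by rw [star_add, map_add, star_add]
          map_smul' := fun c x => by
            rw [hS.star_smul, map_smul, smul_eq_mul, star_mul, star_star, RingHom.id_apply,
              smul_eq_mul, mul_comm] }
      obtain ⟨C, hC⟩ := hlin p p.2 Λ'
      refine ⟨C, fun x => ?_⟩
      rw [hνt, hνt, hS.star_alg]
      have h2 := hC (star x)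
      have h3 : Λ' (star x) = star (Λ x) := by
        change star (Λ (star (star x))) = _
        rw [star_star]
      rwa [h3] at h2
  -- a minimum over the places
  have hmin : ∀ φ : Pl k → ℝ, (∀ p ∈ Tdiv k K D, 0 < φ p) → ∃ ε : ℝ, 0 < ε ∧
      ∀ p ∈ Tdiv k K D, ε ≤ φ p := fun φ hφ => by
    obtain ⟨p, hp, hmin⟩ := Set.exists_min_image (Tdiv k K D) φ hTf hT
    exact ⟨φ p, hφ p hp, hmin⟩
  -- from coordinates to absolute values
  have hback : ∀ ε : ℝ, 0 < ε → ∃ δ : ℝ, 0 < δ ∧ ∀ g : Dˣ, g ∈ UD D →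
      (∀ p ∈ Tdiv k K D, Even.nm B p ((g : D) - 1) < δ) → ∀ i : ι, ν i ((g : D) - 1) < ε := by
    intro ε hε
    choose! δ hδ0 hδ using fun (p : Pl k) (hp : p ∈ Tdiv k K D) =>
      hnm' p hp (min ε 1) (lt_min hε one_pos)
    obtain ⟨δ', hδ', hle⟩ := hmin δ hδ0
    refine ⟨δ', hδ', fun g hg h => ?_⟩
    rintro ⟨p, b⟩
    exact (hun g hg (min ε 1) (min_le_right _ _) p (hδ p p.2 _ ((h p p.2).trans_le
      (hle p p.2))) b).trans_le (min_le_left _ _)
  obtain ⟨ε₂, h02, hroot⟩ := exists_root_G hUuni hss (two_ne_zero : (2 : D) ≠ 0) nrd (n := n)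
    (m := m) (Nat.cast_ne_zero.mpr (by positivity)) hna hns
    (fun ε hε => nrd_near_one hlinν f hnf hε) (one_pos : (0 : ℝ) < 1)
  obtain ⟨ε, h0, hε⟩ := hback ε₂ h02
  refine ⟨ε, h0, fun h hh hn1 δ hδ => ?_⟩
  have hhG := (hGN h).mpr hh
  have hhU : h ∈ UD D := (mem_GN.mp hhG).1
  -- the radius
  choose! r hr0 hr using fun (p : Pl k) (hp : p ∈ Tdiv k K D) => hnm p hp δ hδ
  obtain ⟨r', hr', hrle⟩ := hmin r hr0
  obtain ⟨y, hyU, hy1, -, hy⟩ := hroot h hhU (mem_GN.mp hhG).2 (hε h hhU hn1) r' hr'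
  have hyS : y ∈ SUD f := (hGN y).mp (mem_GN.mpr ⟨hyU, hy1⟩)
  refine ⟨y, hyS, fun p hp => ?_⟩
  have hU : h⁻¹ * y ^ m ∈ UD D := (UD D).mul_mem ((UD D).inv_mem hhU) ((UD D).pow_mem hyU m)
  refine hr p hp _ hU ?_
  have hA1 : A p (h : D) = 1 := h1 p hp _ _ (hnrd h) (mem_GN.mp hhG).2
  have e : ((h⁻¹ * y ^ m : Dˣ) : D) - 1 = ((h⁻¹ : Dˣ) : D) * ((y : D) ^ m - h) := by
    rw [mul_sub, Units.inv_mul, Units.val_mul, Units.val_pow_eq_pow_val]
  rw [e, map_mul, Units.val_inv_eq_inv_val, nu_inv, hA1, inv_one, one_mul]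
  exact (hy (⟨p, hp⟩, false)).trans_le (hrle p hp)

end Vale.Agent.P011.H519.Hull
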