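import Vale.Agent.P011.H14.Glob
import Vale.Agent.P011.H519.RootNear

/-!
**Unitary elements close to one act trivially modulo `Q` on the elements close to one.**

`Q ≤ H` are normal subgroups of `SU_1(D, *)`, `Q` of finite index, `H` open at `Tdiv`, and `H / Q`
is central.  For a unitary element `u` the elements `x` with `u x u⁻¹ x⁻¹ ∈ Q` form a subgroup
`Eqz`; it contains `Q ⊓ u⁻¹ Q u`, and the elements of `H` which commute with a unitary element of
the same reduced norm as `u` (`Good`).  The hypothesis `Sieve` says that for `u` close to one and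
for every `h'` with a prescribed behaviour at finitely many places, integral outside one more place,
there is a good `t` such that `h' t` is good.  The conclusion `ui_of_sieve` is that there is one
ball, the same for all `u`, all of whose elements are in `Eqz`.
-/

open NumberField IsDedekindDomain Module Filter Topology
open scoped commutatorElement

set_option linter.unusedSectionVars false

namespace Vale.Agent.P011.H519.Hull

section grp

variable {Γ : Type*} [Group Γ]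

/-- The elements fixed by `φ` modulo `Q`. -/
def Eqz (φ : Γ →* Γ) (Q : Subgroup Γ) [hQ : Q.Normal] : Subgroup Γ where
  carrier := {x | φ x * x⁻¹ ∈ Q}
  one_mem' := by
    change φ 1 * 1⁻¹ ∈ Q
    rw [map_one, inv_one, mul_one]
    exact Q.one_mem
  mul_mem' := by
    intro x y hx hy
    change φ (x * y) * (x * y)⁻¹ ∈ Q
    have e : φ (x * y) * (x * y)⁻¹ = φ x * x⁻¹ * (x * (φ y * y⁻¹) * x⁻¹) := by
      rw [map_mul]
      group
    rw [e]
    exact Q.mul_mem hx (hQ.conj_mem _ hy x)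
  inv_mem' := by
    intro x hx
    change φ x⁻¹ * x⁻¹⁻¹ ∈ Q
    have e : φ x⁻¹ * x⁻¹⁻¹ = (x⁻¹ * (φ x * x⁻¹) * x⁻¹⁻¹)⁻¹ := by
      rw [map_inv]
      group
    rw [e]
    exact Q.inv_mem (hQ.conj_mem _ hx x⁻¹)

theorem mem_Eqz {φ : Γ →* Γ} {Q : Subgroup Γ} [Q.Normal] {x : Γ} :
    x ∈ Eqz φ Q ↔ φ x * x⁻¹ ∈ Q := Iff.rfl

theorem inf_le_Eqz (φ : Γ →* Γ) (Q : Subgroup Γ) [Q.Normal] : Q ⊓ Q.comap φ ≤ Eqz φ Q :=
  fun _ hx => Q.mul_mem hx.2 (Q.inv_mem hx.1)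

theorem pow_mem_Eqz (φ : Γ →* Γ) (Q : Subgroup Γ) [Q.Normal] (x : Γ) : x ^ Q.index ∈ Eqz φ Q :=
  inf_le_Eqz φ Q ⟨Q.pow_index_mem x, by
    change φ (x ^ Q.index) ∈ Q
    rw [map_pow]
    exact Q.pow_index_mem _⟩

theorem inf_comap_index (φ : Γ →* Γ) {Q : Subgroup Γ} (hi : Q.index ≠ 0) :
    (Q ⊓ Q.comap φ).index ≠ 0 := by
  refine Subgroup.index_inf_ne_zero hi ?_
  have h1 := Subgroup.relIndex_comap_ne_zero φ (J := Q) (K := ⊤)
    (by rwa [Subgroup.relIndex_top_right])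
  rwa [Subgroup.comap_top, Subgroup.relIndex_top_right] at h1

end grp

open Vale.Agent.P011.Arith Vale.Agent.P011.Even Vale.Agent.P011.Two Vale.Agent.P011.One
  Vale.Agent.P011.MPQ Vale.Agent.P011.H182 Vale.Agent.P011.H14

section defs

variable {K D Ω : Type} [Field K] [DivisionRing D] [StarRing D] [Algebra K D] [Field Ω]
  [Algebra K Ω] {n : ℕ}

/-- The element commutes with a unitary element of reduced norm `b`. -/
def Good (f : D →ₐ[K] Matrix (Fin n) (Fin n) Ω) (b : Ω) (y : D) : Prop :=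
  ∃ e : D, e * star e = 1 ∧ e * y = y * e ∧ (f e).det = b

variable {f : D →ₐ[K] Matrix (Fin n) (Fin n) Ω}

/-- **A good element of `H` is fixed by `u` modulo `Q`.** -/
theorem mem_Eqz_of_good {Q H : Subgroup (SUD f)} [hQ : Q.Normal]
    (hc : ∀ g : SUD f, ∀ x ∈ H, ⁅g, x⁆ ∈ Q) {u : Dˣ} (hu : (u : D) * star (u : D) = 1)
    {y : SUD f} (hy : y ∈ H) (hg : Good f (f (u : D)).det ((y : Dˣ) : D)) :
    y ∈ Eqz (cj f u hu) Q := by
  obtain ⟨e, he, hey, hed⟩ := hg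
  obtain ⟨e', rfl⟩ : ∃ e' : Dˣ, (e' : D) = e :=
    ⟨Units.mk0 e (left_ne_zero_of_mul_eq_one he), rfl⟩
  have hcomm : e' * (y : Dˣ) = (y : Dˣ) * e' := Units.ext hey
  have hse : star (e' : D) = ((e'⁻¹ : Dˣ) : D) := by
    rw [← Units.mul_right_inj e', he, Units.mul_inv]
  have hse' : star ((e'⁻¹ : Dˣ) : D) = (e' : D) := by rw [← hse, star_star]
  have hdu : (f (e' : D)).det * (f ((e'⁻¹ : Dˣ) : D)).det = 1 := by
    rw [← Matrix.det_mul, ← map_mul, Units.mul_inv, map_one, Matrix.det_one]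
  obtain ⟨g, hgd⟩ : ∃ g : SUD f, (g : Dˣ) = u * e'⁻¹ := by
    refine ⟨⟨u * e'⁻¹, mem_SUD.mpr ⟨?_, ?_⟩⟩, rfl⟩
    · rw [Units.val_mul, star_mul, hse', mul_assoc, ← mul_assoc ((e'⁻¹ : Dˣ) : D),
        Units.inv_mul, one_mul, hu]
    · rw [Units.val_mul, map_mul, Matrix.det_mul, ← hed, hdu]
  have h1 : cj f u hu y * y⁻¹ = ⁅g, y⁆ := by
    apply Subtype.ext
    rw [commutatorElement_def]
    simp only [Subgroup.coe_mul, Subgroup.coe_inv]
    rw [hgd]
    change u * (y : Dˣ) * u⁻¹ * (y : Dˣ)⁻¹ = _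
    have h2 : e'⁻¹ * (y : Dˣ) * e' = (y : Dˣ) := by
      rw [mul_assoc, ← hcomm, ← mul_assoc, inv_mul_cancel, one_mul]
    calc u * (y : Dˣ) * u⁻¹ * (y : Dˣ)⁻¹ = u * (e'⁻¹ * (y : Dˣ) * e') * u⁻¹ * (y : Dˣ)⁻¹ := by
          rw [h2]
      _ = _ := by group
  rw [mem_Eqz, h1]
  exact hc g y hy

end defs

variable {k K D : Type} [Field k] [NumberField k] [Field K] [NumberField K] [StarRing K]
  [DivisionRing D] [StarRing D] [Algebra k K] [Algebra k D] [Algebra K D] [IsScalarTower k K D]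
  {d : kˣ} {s : K} {N : ℕ} {Ω : Type} [Field Ω] [Algebra K Ω] {n : ℕ}

/-- **The sieve.**  For a unitary `u` close to one at `Tdiv` there are a finite set of places `T`,
finitely many places `S₁` outside `T` with elements `g v`, one more place `q`, and a radius `ε`,
such that every `h'` close to one at `T` and at the archimedean places, close to `g v` at `S₁` and
integral elsewhere outside `q` admits `t` close to one at `Tdiv` with `t` and `h' t` good. -/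
def Sieve (k : Type) {K D Ω : Type} [Field k] [NumberField k] [Field K] [DivisionRing D]
    [StarRing D] [Algebra k K] [Algebra k D] [Algebra K D] [Field Ω] [Algebra K Ω] {n N : ℕ}
    (f : D →ₐ[K] Matrix (Fin n) (Fin n) Ω) (B : Basis (Fin N) k D) : Prop :=
  ∀ η : ℝ, 0 < η → ∃ η' : ℝ, 0 < η' ∧ ∀ u : D, u * star u = 1 →
    (∀ p ∈ Tdiv k K D, Even.nm B p (u - 1) < η') →
    ∃ (T S₁ : Set (HeightOneSpectrum (𝓞 k))) (q : HeightOneSpectrum (𝓞 k))
      (g : HeightOneSpectrum (𝓞 k) → SUD f) (ε : ℝ), T.Finite ∧ S₁.Finite ∧ Bad B ⊆ T ∧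
      (∀ v, (Sum.inl v : Pl k) ∈ Tdiv k K D → v ∈ T) ∧ q ∉ T ∧ q ∉ S₁ ∧ (∀ v ∈ S₁, v ∉ T) ∧
      0 < ε ∧ ∀ h' : SUD f,
        (∀ v ∈ T, na B (fa v) (((h' : Dˣ) : D) - 1) < ε) →
        (∀ v ∈ S₁, na B (fa v) (((h' : Dˣ) : D) - ((g v : Dˣ) : D)) < ε) →
        (∀ φ : k →+* ℂ, na B (cAbv φ) (((h' : Dˣ) : D) - 1) < ε) →
        (∀ v, v ∉ T → v ∉ S₁ → v ≠ q → Ig B (fa v) ((h' : Dˣ) : D)) →
        ∃ t : SUD f, (∀ p ∈ Tdiv k K D, Even.nm B p (((t : Dˣ) : D) - 1) < η) ∧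
          Good f (f u).det ((t : Dˣ) : D) ∧
          Good f (f u).det (((h' : Dˣ) : D) * ((t : Dˣ) : D))

/-- A neighbourhood of one at `Tdiv`, with one radius. -/
theorem pf_ball (hS : Setting k K D d s) (hn : 2 ≤ n) (hdeg : finrank K D = n ^ 2)
    {f : D →ₐ[K] Matrix (Fin n) (Fin n) Ω} {B : Basis (Fin N) k D} {V : Subgroup (SUD f)}
    (hV : PF B (GU f) (Im V) (Tdiv k K D)) : ∃ ε : ℝ, 0 < ε ∧ ∀ g : SUD f,
      (∀ p ∈ Tdiv k K D, Even.nm B p (((g : Dˣ) : D) - 1) < ε) → g ∈ V := by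
  have := hS.fin
  have := hS.cen
  obtain ⟨η, hη, h⟩ := hV
  obtain ⟨ε, hε, hle⟩ := exists_lower (Vale.Agent.P011.Pow.tdiv_finite hn hdeg) (u := η)
    fun p _ => hη p
  exact ⟨ε, hε, fun g hg => mem_of_im (h _ g.2 fun p hp => (hg p hp).trans_le (hle p hp))⟩

/-- The closure at `Tdiv` is contained in every open subgroup containing the subgroup. -/
theorem clQ_le_sup (hS : Setting k K D d s) (hn : 2 ≤ n) (hdeg : finrank K D = n ^ 2)
    {f : D →ₐ[K] Matrix (Fin n) (Fin n) Ω} {B : Basis (Fin N) k D} {M V : Subgroup (SUD f)}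
    (hV : PF B (GU f) (Im V) (Tdiv k K D)) : clQ B (Tdiv k K D) M ≤ M ⊔ V := by
  have := hS.fin
  have := hS.cen
  obtain ⟨ε, hε, hVε⟩ := pf_ball hS hn hdeg hV
  rintro x ⟨y, hy, hyx⟩
  have h1 : ∀ᶠ j in atTop, ∀ p ∈ Tdiv k K D,
      Even.nm B p (((((y j)⁻¹ * x : SUD f) : Dˣ) : D) - 1) < ε := by
    rw [Filter.eventually_all_finite (Vale.Agent.P011.Pow.tdiv_finite hn hdeg)]
    intro p hp
    have h2 := ((hyx p hp).inv (Units.ne_zero _)).mul (Tn.const (B := B) (p := p) (l := atTop)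
      ((x : Dˣ) : D))
    rw [inv_mul_cancel₀ (Units.ne_zero _)] at h2
    simpa only [coe_mul', coe_inv'] using h2.ev_lt hε
  obtain ⟨j, hj⟩ := h1.exists
  have e : x = y j * ((y j)⁻¹ * x) := by rw [mul_inv_cancel_left]
  rw [e]
  exact (M ⊔ V).mul_mem (Subgroup.mem_sup_left (hy j)) (Subgroup.mem_sup_right (hVε _ hj))

/-- **The elements close to one are fixed modulo `Q` by the unitary elements close to one.** -/
theorem ui_of_sieve (hS : Setting k K D d s) (hn : 3 ≤ n) (hdeg : finrank K D = n ^ 2)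
    (f : D →ₐ[K] Matrix (Fin n) (Fin n) Ω) (B : Basis (Fin N) k D) {Q H : Subgroup (SUD f)}
    [hQ : Q.Normal] (hi : Q.index ≠ 0) (hH : PF B (GU f) (Im H) (Tdiv k K D))
    (hc : ∀ g : SUD f, ∀ x ∈ H, ⁅g, x⁆ ∈ Q) (hsv : Sieve k f B) :
    ∃ ε : ℝ, 0 < ε ∧ ∀ (u : Dˣ) (hu : (u : D) * star (u : D) = 1),
      (∀ p ∈ Tdiv k K D, Even.nm B p ((u : D) - 1) < ε) → ∀ h : SUD f,
      (∀ p ∈ Tdiv k K D, Even.nm B p (((h : Dˣ) : D) - 1) < ε) → h ∈ Eqz (cj f u hu) Q := by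
  classical
  have := hS.fin
  have := hS.cen
  have hTf := Vale.Agent.P011.Pow.tdiv_finite (k := k) (K := K) (D := D) (n := n) (by omega) hdeg
  obtain ⟨εH, hεH, hHε⟩ := pf_ball hS (by omega) hdeg hH
  obtain ⟨η', hη', hsieve⟩ := hsv εH hεH
  obtain ⟨ε1, hε1, hroot⟩ := root_near hS (by omega) hdeg f B (Nat.pos_of_ne_zero hi)
  refine ⟨min η' ε1, lt_min hη' hε1, fun u hu hun h hh => ?_⟩
  -- the hull
  obtain ⟨M, hM⟩ : ∃ M : Subgroup (SUD f), M = Q ⊓ Q.comap (cj f u hu) := ⟨_, rfl⟩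
  have hMi : M.index ≠ 0 := hM ▸ inf_comap_index _ hi
  have hMn : M.Normal := by
    rw [hM]
    have := hQ.comap (cj f u hu)
    infer_instance
  have hME : M ≤ Eqz (cj f u hu) Q := hM ▸ inf_le_Eqz _ _
  obtain ⟨H3, hH3⟩ : ∃ H3 : Subgroup (SUD f), H3 = clQ B (Tdiv k K D) M := ⟨_, rfl⟩
  have hH3pf : PF B (GU f) (Im H3) (Tdiv k K D) := hH3 ▸ clQ_pf hTf hMi
  have hd3 : ∀ V : Subgroup (SUD f), PF B (GU f) (Im V) (Tdiv k K D) → H3 ≤ M ⊔ V :=
    fun V hV => hH3 ▸ clQ_le_sup hS (by omega) hdeg hV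
  -- the elements of the hull
  have key : H3 ≤ Eqz (cj f u hu) Q := by
    intro x hx
    obtain ⟨T, S₁, q, g, ε, hT, hS₁, hb, hTd, hqT, hqS, hST, hε, hsv⟩ :=
      hsieve u hu fun p hp => (hun p hp).trans_le (min_le_left _ _)
    have hqd : (Sum.inl q : Pl k) ∉ Tdiv k K D := fun h => hqT (hTd q h)
    obtain ⟨ε', hε', hε'1, hε'2⟩ : ∃ ε' : ℝ, 0 < ε' ∧ ε' ≤ ε / 2 ∧ ε' ≤ εH / 2 :=
      ⟨min (ε / 2) (εH / 2), lt_min (by positivity) (by positivity), min_le_left _ _,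
        min_le_right _ _⟩
    obtain ⟨τ, hτQ, hτc, hτ1, hτ2, hτ3, -⟩ := glob hS hn hdeg f B hi hqd hT hb hS₁
      (fun v hv => ⟨hST v hv, fun h => hqS (h ▸ hv), fun h => hST v hv (hTd v h)⟩) g u hu hε'
    have hτM : τ ∈ M := by
      rw [hM]
      exact ⟨hτQ, hτc⟩
    have hτ : τ ∈ H3 := hH3 ▸ le_clQ hτM
    obtain ⟨x', hx'M, hx'1, hx'2, hx'3⟩ := coset_strong hS hn hdeg f B hMi hd3 hqd
      (hT.union hS₁) (hb.trans Set.subset_union_left) (fun v hv => Or.inl (hTd v hv)) hx hτ hε'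
    have hadd : ∀ (a : AbsoluteValue k ℝ) (y z w : D), na B a (y - z) < ε' →
        na B a (z - w) < ε' → na B a (y - w) < ε' + ε' := by
      intro a y z w h1 h2
      have e : y - w = (y - z) + (z - w) := by abel
      rw [e]
      exact (na_add_le _ _ _ _).trans_lt (add_lt_add h1 h2)
    have hvT : ∀ v ∈ T, na B (fa v) (((x' : Dˣ) : D) - 1) < ε' + ε' := fun v hv =>
      have hvq : v ≠ q := fun h => hqT (h ▸ hv)
      hadd _ _ _ _ (hx'1 v (Or.inl hv) hvq) (hτ2 v hv hvq)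
    have hx'H : x' ∈ H := by
      refine hHε x' fun p hp => ?_
      obtain ⟨v, rfl, -⟩ := id hp
      exact (hvT v (hTd v hp)).trans_le (by linarith)
    obtain ⟨t, ht, htg, hxtg⟩ := hsv x' (fun v hv => (hvT v hv).trans_le (by linarith))
      (fun v hv => (hadd _ _ _ _ (hx'1 v (Or.inr hv) fun h => hqS (h ▸ hv))
        (hτ1 v hv)).trans_le (by linarith))
      (fun φ => (hadd _ _ _ _ (hx'2 φ) (hτ3 φ)).trans_le (by linarith))
      (fun v hv hv1 hvq => hx'3 v (fun h => h.elim hv hv1) hvq)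
    have htH : t ∈ H := hHε t ht
    have h1 : t ∈ Eqz (cj f u hu) Q := mem_Eqz_of_good hc hu htH htg
    have h2 : x' * t ∈ Eqz (cj f u hu) Q :=
      mem_Eqz_of_good hc hu (H.mul_mem hx'H htH) (by rw [coe_mul']; exact hxtg)
    have h3 : x' ∈ Eqz (cj f u hu) Q := by
      have h4 := mul_mem h2 (inv_mem h1)
      rwa [mul_inv_cancel_right] at h4
    have h5 := mul_mem h3 (inv_mem (hME hx'M))
    have e : x' * (x⁻¹ * x')⁻¹ = x := by group
    rwa [e] at h5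
  -- the ball
  obtain ⟨ε3, hε3, hH3ε⟩ := pf_ball hS (by omega) hdeg hH3pf
  obtain ⟨y, hy, hyn⟩ := hroot h h.2 (fun p hp => (hh p hp).trans_le (min_le_right _ _)) ε3 hε3
  have h1 : h⁻¹ * (⟨y, hy⟩ : SUD f) ^ Q.index ∈ H3 := hH3ε _ fun p hp => hyn p hp
  have h2 := mul_mem (pow_mem_Eqz (cj f u hu) Q (⟨y, hy⟩ : SUD f)) (inv_mem (key h1))
  have e : (⟨y, hy⟩ : SUD f) ^ Q.index * (h⁻¹ * (⟨y, hy⟩ : SUD f) ^ Q.index)⁻¹ = h := by group
  rwa [e] at h2

end Vale.Agent.P011.H519.Hull
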