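import Mathlib

/-!
# Normed lattices over a ring of polynomials

A module over `F[X]`, `F` a finite field, with an ultrametric norm for which `X` is expanding, whose
balls are finite and which is covered by `X Λ` and a ball, is free of finite rank, and in the
coordinates of a basis its balls are comparable with the boxes of polynomials of bounded degree.
-/

open Module Polynomial

namespace Vale.Agent.P011.H519

/-- A normed lattice over `F[X]`. -/
structure NLat (F Λ : Type*) [Field F] [AddCommGroup Λ] [Module F[X] Λ] (ν : Λ → ℝ) (ρ : ℝ) :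
    Prop where
  nonneg : ∀ x, 0 ≤ ν x
  eq_zero : ∀ x, ν x = 0 → x = 0
  add_le : ∀ x y, ν (x + y) ≤ max (ν x) (ν y)
  X_smul : ∀ x, ν ((X : F[X]) • x) = ρ * ν x
  C_smul : ∀ (a : F) x, a ≠ 0 → ν ((C a : F[X]) • x) = ν x
  one_lt : 1 < ρ
  fin : ∀ c : ℝ, {x | ν x ≤ c}.Finite
  approx : ∃ c : ℝ, ∀ x, ∃ y, ν (x - (X : F[X]) • y) ≤ c

namespace NLat

variable {F Λ : Type*} [Field F] [AddCommGroup Λ] [Module F[X] Λ] {ν : Λ → ℝ} {ρ : ℝ}
  (H : NLat F Λ ν ρ)

include H

theorem ρ_pos : 0 < ρ := lt_trans one_pos H.one_lt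

theorem zero : ν 0 = 0 := by
  have h1 := H.X_smul 0
  rw [smul_zero] at h1
  have h2 : (ρ - 1) * ν 0 = 0 := by linear_combination -h1
  exact (mul_eq_zero.mp h2).resolve_left (sub_ne_zero.mpr H.one_lt.ne')

theorem neg (x : Λ) : ν (-x) = ν x := by
  have h1 := H.C_smul (-1) x (neg_ne_zero.mpr one_ne_zero)
  rwa [C_neg, C_1, neg_smul, one_smul] at h1

theorem sub_le (x y : Λ) : ν (x - y) ≤ max (ν x) (ν y) := by
  rw [sub_eq_add_neg, ← H.neg y]
  exact H.add_le _ _

theorem sum_le {ι : Type*} (s : Finset ι) (g : ι → Λ) {b : ℝ} (hb : 0 ≤ b)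
    (h : ∀ i ∈ s, ν (g i) ≤ b) : ν (∑ i ∈ s, g i) ≤ b := by
  classical
  induction s using Finset.induction_on with
  | empty => rw [Finset.sum_empty, H.zero]; exact hb
  | insert i s hi ih =>
    rw [Finset.sum_insert hi]
    exact (H.add_le _ _).trans (max_le (h i (Finset.mem_insert_self i s))
      (ih fun j hj => h j (Finset.mem_insert_of_mem hj)))

theorem X_pow_smul (n : ℕ) (x : Λ) : ν ((X ^ n : F[X]) • x) = ρ ^ n * ν x := by
  induction n with
  | zero => rw [pow_zero, pow_zero, one_smul, one_mul]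
  | succ n ih => rw [pow_succ', mul_smul, H.X_smul, ih]; ring

theorem smul_le (p : F[X]) (x : Λ) {n : ℕ} (hp : p.natDegree ≤ n) :
    ν (p • x) ≤ ρ ^ n * ν x := by
  have hb : 0 ≤ ρ ^ n * ν x := mul_nonneg (pow_nonneg H.ρ_pos.le n) (H.nonneg x)
  have h1 : p • x = ∑ i ∈ Finset.range (p.natDegree + 1), (C (p.coeff i) * X ^ i : F[X]) • x := by
    rw [← Finset.sum_smul, ← p.as_sum_range_C_mul_X_pow]
  rw [h1]
  refine H.sum_le _ _ hb fun i hi => ?_
  by_cases hc : p.coeff i = 0
  · rw [hc, C_0, zero_mul, zero_smul, H.zero]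
    exact hb
  · rw [mul_smul, H.C_smul _ _ hc, H.X_pow_smul]
    refine mul_le_mul_of_nonneg_right ?_ (H.nonneg x)
    refine pow_le_pow_right₀ H.one_lt.le ?_
    have := Finset.mem_range.mp hi
    omega

theorem le_smul {p : F[X]} (hp : p ≠ 0) (x : Λ) : ρ ^ p.natDegree * ν x ≤ ν (p • x) := by
  by_cases hx : ν x = 0
  · rw [hx, mul_zero]
    exact H.nonneg _
  have hx' : 0 < ν x := lt_of_le_of_ne (H.nonneg x) (Ne.symm hx)
  have h1 : ν ((C p.leadingCoeff * X ^ p.natDegree : F[X]) • x) = ρ ^ p.natDegree * ν x := by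
    rw [mul_smul, H.C_smul _ _ (leadingCoeff_ne_zero.mpr hp), H.X_pow_smul]
  have h2 : (C p.leadingCoeff * X ^ p.natDegree : F[X]) • x = p • x - p.eraseLead • x := by
    rw [← sub_smul]
    congr 1
    rw [eq_sub_iff_add_eq, add_comm]
    exact p.eraseLead_add_C_mul_X_pow
  have h3 : ν (p.eraseLead • x) < ρ ^ p.natDegree * ν x := by
    by_cases h0 : p.eraseLead = 0
    · rw [h0, zero_smul, H.zero]
      exact mul_pos (pow_pos H.ρ_pos _) hx'
    · have h4 : p.eraseLead.natDegree < p.natDegree := by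
        rcases lt_or_ge p.natDegree 1 with h5 | h5
        · exfalso
          apply h0
          have h6 : p.natDegree = 0 := by omega
          rw [eq_C_of_natDegree_eq_zero h6]
          exact eraseLead_C _
        · have := eraseLead_natDegree_le p
          omega
      refine (H.smul_le _ _ le_rfl).trans_lt ?_
      exact mul_lt_mul_of_pos_right (pow_lt_pow_right₀ H.one_lt h4) hx'
  have h4 := H.sub_le (p • x) (p.eraseLead • x)
  rw [← h2, h1] at h4
  exact (le_max_iff.mp h4).resolve_right (not_le.mpr h3)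

theorem isTorsionFree : IsTorsionFree F[X] Λ := by
  refine .of_smul_eq_zero fun p x h => ?_
  by_contra hcon
  push Not at hcon
  have h1 := H.le_smul hcon.1 x
  rw [h, H.zero] at h1
  have h2 : 0 < ν x := lt_of_le_of_ne (H.nonneg x) fun h' => hcon.2 (H.eq_zero x h'.symm)
  exact absurd h1 (not_le.mpr (mul_pos (pow_pos H.ρ_pos _) h2))

theorem finite : Module.Finite F[X] Λ := by
  classical
  obtain ⟨c, hc⟩ := H.approx
  set S := (H.fin c).toFinset with hS
  refine ⟨⟨S, ?_⟩⟩
  rw [eq_top_iff]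
  rintro x -
  have hmem : ∀ z, ν z ≤ c → z ∈ Submodule.span F[X] (S : Set Λ) := fun z hz =>
    Submodule.subset_span (by rw [hS, Set.Finite.coe_toFinset]; exact hz)
  have key : ∀ (N : ℕ) (x : Λ), (H.fin (ν x)).toFinset.card ≤ N →
      x ∈ Submodule.span F[X] (S : Set Λ) := by
    intro N
    induction N with
    | zero =>
      intro x hx
      exfalso
      have h1 : x ∈ (H.fin (ν x)).toFinset := by simp
      rw [Nat.le_zero, Finset.card_eq_zero] at hx
      rw [hx] at h1
      exact Finset.notMem_empty _ h1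
    | succ N ih =>
      intro x hx
      by_cases hxc : ν x ≤ c
      · exact hmem x hxc
      push Not at hxc
      obtain ⟨y, hy⟩ := hc x
      have hc0 : 0 ≤ c := (H.nonneg _).trans hy
      have hx0 : 0 < ν x := lt_of_le_of_lt hc0 hxc
      have h1 : ρ * ν y ≤ ν x := by
        rw [← H.X_smul]
        have h2 : (X : F[X]) • y = x - (x - (X : F[X]) • y) := by abel
        rw [h2]
        exact (H.sub_le _ _).trans (max_le le_rfl (hy.trans hxc.le))
      have h2 : ν y < ν x := by
        rcases eq_or_lt_of_le (H.nonneg y) with h | h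
        · rw [← h]
          exact hx0
        · calc ν y = 1 * ν y := (one_mul _).symm
            _ < ρ * ν y := mul_lt_mul_of_pos_right H.one_lt h
            _ ≤ ν x := h1
      have h3 : (H.fin (ν y)).toFinset ⊂ (H.fin (ν x)).toFinset := by
        rw [Finset.ssubset_iff_of_subset]
        · refine ⟨x, by simp, ?_⟩
          simpa using h2
        · intro z hz
          rw [Set.Finite.mem_toFinset, Set.mem_ofPred_eq] at hz ⊢
          exact hz.trans h2.le
      have h4 := Finset.card_lt_card h3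
      have h5 := ih y (by omega)
      have h6 : x = (x - (X : F[X]) • y) + (X : F[X]) • y := by abel
      rw [h6]
      exact Submodule.add_mem _ (hmem _ hy) (Submodule.smul_mem _ _ h5)
  exact key _ x le_rfl

theorem free : Module.Free F[X] Λ := by
  have := H.finite
  have := H.isTorsionFree
  exact Module.free_of_finite_type_torsion_free'

end NLat

/-- The degree of a vector of polynomials. -/
noncomputable def dg {F : Type*} [Field F] {r : ℕ} (p : Fin r → F[X]) : ℕ :=
  Finset.univ.sup fun i => (p i).natDegree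

theorem natDegree_le_dg {F : Type*} [Field F] {r : ℕ} (p : Fin r → F[X]) (i : Fin r) :
    (p i).natDegree ≤ dg p := Finset.le_sup (f := fun i => (p i).natDegree) (Finset.mem_univ i)

theorem dg_le_iff {F : Type*} [Field F] {r : ℕ} {p : Fin r → F[X]} {m : ℕ} :
    dg p ≤ m ↔ ∀ i, (p i).natDegree ≤ m := by
  unfold dg
  rw [Finset.sup_le_iff]
  simp

namespace NLat

variable {F Λ : Type*} [Field F] [AddCommGroup Λ] [Module F[X] Λ] {ν : Λ → ℝ} {ρ : ℝ}
  (H : NLat F Λ ν ρ)

include H

/-- The balls of the lattice are comparable with the boxes in the coordinates of a basis. -/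
theorem boxes {r : ℕ} (e : Basis (Fin r) F[X] Λ) : ∃ c : ℕ, ∀ (m : ℕ) (x : Λ),
    (ν x ≤ ρ ^ m → dg (e.repr x) ≤ m + c) ∧ (dg (e.repr x) ≤ m → ν x ≤ ρ ^ (m + c)) := by
  classical
  -- a bound for the norms of the basis
  obtain ⟨a, ha⟩ : ∃ a : ℕ, ∀ i, ν (e i) ≤ ρ ^ a := by
    have h1 : ∀ i, ∃ a : ℕ, ν (e i) ≤ ρ ^ a := fun i =>
      (pow_unbounded_of_one_lt (ν (e i)) H.one_lt).imp fun _ h => h.le
    choose a ha using h1
    exact ⟨Finset.univ.sup a, fun i => (ha i).trans
      (pow_le_pow_right₀ H.one_lt.le (Finset.le_sup (Finset.mem_univ i)))⟩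
  have hup : ∀ (m : ℕ) (x : Λ), dg (e.repr x) ≤ m → ν x ≤ ρ ^ (m + a) := by
    intro m x hx
    conv_lhs => rw [← e.sum_repr x]
    refine H.sum_le _ _ (pow_nonneg H.ρ_pos.le _) fun i _ => ?_
    refine (H.smul_le _ _ ((natDegree_le_dg (e.repr x) i).trans hx)).trans ?_
    rw [pow_add]
    exact mul_le_mul_of_nonneg_left (ha i) (pow_nonneg H.ρ_pos.le _)
  -- the degrees on the ball of radius `ρ ^ a`
  set S := (H.fin (ρ ^ a)).toFinset with hS
  obtain ⟨J, hJ⟩ : ∃ J : ℕ, ∀ x : Λ, ν x ≤ ρ ^ a → dg (e.repr x) ≤ J :=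
    ⟨S.sup fun x => dg (e.repr x), fun x hx => Finset.le_sup (f := fun x => dg (e.repr x))
      (by rw [hS, Set.Finite.mem_toFinset]; exact hx)⟩
  refine ⟨max a J, fun m x => ⟨fun hx => ?_, fun hx => (hup m x hx).trans
    (pow_le_pow_right₀ H.one_lt.le (by omega))⟩⟩
  -- the truncation of `x`
  let y : Λ := ∑ i, (e.repr x i /ₘ X ^ m) • e i
  let z : Λ := ∑ i, (e.repr x i %ₘ X ^ m) • e i
  have hxyz : (X ^ m : F[X]) • y = x - z := by
    rw [eq_sub_iff_add_eq]
    conv_rhs => rw [← e.sum_repr x]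
    rw [Finset.smul_sum, ← Finset.sum_add_distrib]
    refine Finset.sum_congr rfl fun i _ => ?_
    rw [smul_smul, ← add_smul]
    congr 1
    rw [add_comm]
    exact modByMonic_add_div (e.repr x i) (X ^ m)
  have hz : ν z ≤ ρ ^ (m + a) := by
    refine H.sum_le _ _ (pow_nonneg H.ρ_pos.le _) fun i _ => ?_
    have h1 : (e.repr x i %ₘ X ^ m).natDegree ≤ m := by
      have h2 := natDegree_modByMonic_le (e.repr x i) (monic_X_pow (R := F) m)
      rwa [natDegree_X_pow] at h2
    refine (H.smul_le _ _ h1).trans ?_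
    rw [pow_add]
    exact mul_le_mul_of_nonneg_left (ha i) (pow_nonneg H.ρ_pos.le _)
  have hy : ν y ≤ ρ ^ a := by
    have h1 : ρ ^ m * ν y ≤ ρ ^ m * ρ ^ a := by
      rw [← H.X_pow_smul, hxyz, ← pow_add]
      refine (H.sub_le _ _).trans (max_le (hx.trans ?_) hz)
      exact pow_le_pow_right₀ H.one_lt.le (by omega)
    exact le_of_mul_le_mul_left h1 (pow_pos H.ρ_pos m)
  have hrep : ∀ i, e.repr y i = e.repr x i /ₘ X ^ m := by
    intro i
    exact congrFun (e.repr_sum_self fun i => e.repr x i /ₘ X ^ m) i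
  have h1 := hJ y hy
  rw [dg_le_iff] at h1 ⊢
  intro i
  have h2 := h1 i
  rw [hrep] at h2
  have h3 := modByMonic_add_div (e.repr x i) (X ^ m : F[X])
  rw [← h3]
  refine (natDegree_add_le _ _).trans (max_le ?_ ?_)
  · have h4 := natDegree_modByMonic_le (e.repr x i) (monic_X_pow (R := F) m)
    rw [natDegree_X_pow] at h4
    omega
  · refine natDegree_mul_le.trans ?_
    rw [natDegree_X_pow]
    omega

end NLat

end Vale.Agent.P011.H519
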