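import Vale.Agent.P011.H271.KSF
import Vale.Agent.P011.H519.PolyLat

/-!
# Lattices over a function field in polynomial coordinates

`q` a place of the function field `k`, `f` a function with its only pole at `q`, `V` a finite
dimensional vector space over `k`, `Λ` a lattice in `V` over the ring of the functions regular
outside `q`.  Then `Λ` is a free module of finite rank over the ring `F[f]` of the polynomials in
`f`, and the balls of `Λ` at `q` are comparable with the boxes of polynomials of bounded degree.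
-/

open Module Polynomial
open Vale.Agent.P011.H738 Vale.Agent.P011.H271

namespace Vale.Agent.P011.H519

variable {k : Type} [Field k] {ι V : Type*} [Fintype ι] [AddCommGroup V] [Module k V]

/-- The norm at `q` in the coordinates of a basis. -/
noncomputable def nu (q : Place k) (b : Basis ι k V) (x : V) : ℝ :=
  ‖fun i => algebraMap k q.comp (b.repr x i)‖

variable {q : Place k} {b : Basis ι k V}

theorem nu_nonneg (x : V) : 0 ≤ nu q b x := norm_nonneg _

theorem nu_le_iff {x : V} {c : ℝ} (hc : 0 ≤ c) : nu q b x ≤ c ↔ ∀ i, q.abv (b.repr x i) ≤ c := by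
  unfold nu
  rw [pi_norm_le_iff_of_nonneg hc]
  exact forall_congr' fun i => by rw [norm_alg]

theorem abv_le_nu (x : V) (i : ι) : q.abv (b.repr x i) ≤ nu q b x :=
  (nu_le_iff (nu_nonneg x)).mp le_rfl i

theorem nu_smul (c : k) (x : V) : nu q b (c • x) = q.abv c * nu q b x := by
  unfold nu
  rw [← norm_alg q c, ← norm_smul]
  congr 1
  funext i
  rw [map_smul, Finsupp.smul_apply, smul_eq_mul, map_mul]
  rfl

theorem nu_add_le (x y : V) : nu q b (x + y) ≤ max (nu q b x) (nu q b y) := by
  rw [nu_le_iff (le_max_of_le_left (nu_nonneg x))]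
  intro i
  rw [map_add, Finsupp.add_apply]
  exact (q.nonarch _ _).trans (max_le_max (abv_le_nu x i) (abv_le_nu y i))

theorem nu_eq_zero {x : V} (h : nu q b x = 0) : x = 0 := by
  apply b.ext_elem
  intro i
  have h1 := abv_le_nu (q := q) (b := b) x i
  rw [h] at h1
  have h2 := (AbsoluteValue.eq_zero q.abv).mp (le_antisymm h1 (q.abv.nonneg _))
  rw [h2, map_zero]
  rfl

/-- Elements of a finite subfield have absolute value one. -/
theorem abv_finite {F : Type*} [Field F] [Finite F] (j : F →+* k) {a : F} (ha : a ≠ 0) :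
    q.abv (j a) = 1 := by
  have := Fintype.ofFinite F
  have h1 : a ^ (Fintype.card F - 1) = 1 := FiniteField.pow_card_sub_one_eq_one a ha
  have h2 : q.abv (j a) ^ (Fintype.card F - 1) = 1 := by
    rw [← map_pow, ← map_pow, h1, map_one, map_one]
  have h3 : Fintype.card F - 1 ≠ 0 := by
    have := Fintype.one_lt_card (α := F)
    omega
  exact (pow_eq_one_iff_of_nonneg (q.abv.nonneg _) h3).mp h2

variable [GFF k]

/-- Balls in a lattice are finite. -/
theorem finite_ball {Λ : Set V} {d : k} (hd : d ≠ 0)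
    (hΛ : ∀ x ∈ Λ, ∀ i, d * b.repr x i ∈ OSF {q}) (c : ℝ) : {x | x ∈ Λ ∧ nu q b x ≤ c}.Finite := by
  classical
  have hfin : {y : k | ∀ v : Place k, v.abv y ≤ if v = q then c else v.abv d⁻¹}.Finite := by
    refine place_finite_le _ (((place_finite (inv_ne_zero hd)).union
      (Set.finite_singleton q)).subset ?_)
    intro v hv
    by_cases h : v = q
    · exact Or.inr h
    · left
      intro h1
      change 1 < (if v = q then c else v.abv d⁻¹) at hv
      rw [if_neg h, h1] at hv
      exact lt_irrefl _ hv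
  have h1 : {g : ι → k | ∀ i, g i ∈ {y : k | ∀ v : Place k,
      v.abv y ≤ if v = q then c else v.abv d⁻¹}}.Finite := Set.Finite.pi' fun _ => hfin
  refine (h1.preimage (f := fun x : V => fun i => b.repr x i) ?_).subset ?_
  · intro x _ y _ h
    apply b.ext_elem
    intro i
    exact congrFun h i
  · rintro x ⟨hx, hxc⟩ i v
    by_cases h : v = q
    · subst h
      rw [if_pos rfl]
      exact (abv_le_nu x i).trans hxc
    · rw [if_neg h]
      have h2 := hΛ x hx i v (by simpa using h)
      rw [map_mul] at h2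
      rw [map_inv₀]
      have h3 : 0 < v.abv d := v.abv.pos hd
      rwa [← one_div, le_div_iff₀ h3, mul_comm]

/-- Approximation by the multiples of `f` in the lattice. -/
theorem exists_approx {Λ : Set V} {d f : k} (hd : d ≠ 0) (hf : f ≠ 0)
    (hΛ : ∀ x : V, (∀ i, b.repr x i ∈ OSF {q}) → d • x ∈ Λ) :
    ∃ c : ℝ, ∀ x : V, ∃ y ∈ Λ, nu q b (x - f • y) ≤ c := by
  classical
  obtain ⟨C, hC⟩ := place_strong q ∅ (by simp) one_pos
  refine ⟨max 0 (q.abv (f * d) * C), fun x => ?_⟩
  have h1 : ∀ i, ∃ z ∈ OSF {q}, q.abv (b.repr x i / (f * d) - z) ≤ C := by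
    intro i
    obtain ⟨z, -, h2, h3⟩ := hC (fun v => if v = q then b.repr x i / (f * d) else 0) (by
      refine (Set.finite_singleton q).subset fun v hv => ?_
      by_contra h
      change 1 < v.abv (if v = q then b.repr x i / (f * d) else 0) at hv
      rw [if_neg (fun h' => h (Set.mem_singleton_iff.mpr h')), map_zero] at hv
      exact absurd hv (not_lt.mpr zero_le_one))
    refine ⟨z, fun v hv => ?_, ?_⟩
    · have hv' : v ≠ q := by simpa using hv
      have h4 := h2 v hv'
      rw [if_neg hv', zero_sub, v.abv.map_neg] at h4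
      exact h4
    · rw [if_pos rfl] at h3
      exact h3
  choose z hz hz' using h1
  refine ⟨d • ∑ i, z i • b i, hΛ _ fun i => ?_, ?_⟩
  · rw [b.repr_sum_self]
    exact hz i
  · rw [nu_le_iff (le_max_left _ _)]
    intro i
    rw [map_sub, Finsupp.sub_apply, smul_smul, map_smul, Finsupp.smul_apply, b.repr_sum_self,
      smul_eq_mul]
    have hfd : f * d ≠ 0 := mul_ne_zero hf hd
    have h2 : b.repr x i - f * d * z i = f * d * (b.repr x i / (f * d) - z i) := by
      rw [mul_sub, mul_div_cancel₀ _ hfd]
    rw [h2, map_mul]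
    exact (mul_le_mul_of_nonneg_left (hz' i) (q.abv.nonneg _)).trans (le_max_right _ _)

/-- **Polynomial coordinates.** -/
theorem exists_poly_coord {F : Type*} [Field F] [Finite F] (j : F →+* k) {f d : k}
    (hf : 1 < q.abv f) (hd : d ≠ 0) (Λ : AddSubgroup V)
    (hΛj : ∀ (a : F), ∀ x ∈ Λ, j a • x ∈ Λ) (hΛf : ∀ x ∈ Λ, f • x ∈ Λ)
    (hΛ1 : ∀ x : V, (∀ i, b.repr x i ∈ OSF {q}) → d • x ∈ Λ)
    (hΛ2 : ∀ x ∈ Λ, ∀ i, d * b.repr x i ∈ OSF {q}) :
    ∃ (r : ℕ) (e : Λ ≃+ (Fin r → F[X])) (c : ℕ),
      (∀ (p : F[X]) (x y : Λ), (y : V) = eval₂ j f p • (x : V) → e y = p • e x) ∧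
      ∀ (m : ℕ) (x : Λ), (nu q b (x : V) ≤ q.abv f ^ m → dg (e x) ≤ m + c) ∧
        (dg (e x) ≤ m → nu q b (x : V) ≤ q.abv f ^ (m + c)) := by
  let φ : F[X] →+* k := eval₂RingHom j f
  let _ : Module F[X] V := Module.compHom V φ
  have hsm : ∀ (p : F[X]) (x : V), p • x = eval₂ j f p • x := fun _ _ => rfl
  let Λ' : Submodule F[X] V :=
    { Λ with
      smul_mem' := by
        intro p x hx
        change x ∈ Λ at hx
        change p • x ∈ Λ
        induction p using Polynomial.induction_on' with
        | add p r hp hr =>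
          rw [add_smul]
          exact Λ.add_mem hp hr
        | monomial n a =>
          rw [hsm, eval₂_monomial, mul_smul]
          refine hΛj a _ ?_
          induction n with
          | zero => rwa [pow_zero, one_smul]
          | succ n ih =>
            rw [pow_succ', mul_smul]
            exact hΛf _ ih }
  have hf0 : f ≠ 0 := by
    rintro rfl
    rw [map_zero] at hf
    exact absurd hf (not_lt.mpr zero_le_one)
  have H : NLat F Λ' (fun x => nu q b (x : V)) (q.abv f) :=
    { nonneg := fun x => nu_nonneg _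
      eq_zero := fun x hx => Subtype.ext (nu_eq_zero hx)
      add_le := fun x y => nu_add_le _ _
      X_smul := fun x => by
        change nu q b ((X : F[X]) • (x : V)) = _
        rw [hsm, eval₂_X, nu_smul]
      C_smul := fun a x ha => by
        change nu q b ((C a : F[X]) • (x : V)) = _
        rw [hsm, eval₂_C, nu_smul, abv_finite j ha, one_mul]
      one_lt := hf
      fin := fun c => by
        refine ((finite_ball (b := b) hd hΛ2 c).preimage
          (f := fun x : Λ' => (x : V)) Subtype.val_injective.injOn).subset fun x hx => ?_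
        exact ⟨x.2, hx⟩
      approx := by
        obtain ⟨c, hc⟩ := exists_approx (q := q) (b := b) (Λ := (Λ : Set V)) hd hf0 hΛ1
        refine ⟨c, fun x => ?_⟩
        obtain ⟨y, hy, hyc⟩ := hc (x : V)
        refine ⟨⟨y, hy⟩, ?_⟩
        change nu q b ((x : V) - (X : F[X]) • y) ≤ c
        rw [hsm, eval₂_X]
        exact hyc }
  have h1 := H.finite
  have h2 := H.free
  let e := Module.finBasis F[X] Λ'
  obtain ⟨c, hc⟩ := H.boxes e
  let e' : Λ ≃+ (Fin (finrank F[X] Λ') → F[X]) :=
    (e.equivFun.toAddEquiv : Λ' ≃+ (Fin (finrank F[X] Λ') → F[X]))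
  have he' : ∀ x : Λ, e' x = e.equivFun (⟨(x : V), x.2⟩ : Λ') := fun _ => rfl
  refine ⟨_, e', c, ?_, ?_⟩
  · intro p x y hxy
    rw [he', he', ← map_smul]
    congr 1
    exact Subtype.ext hxy
  · intro m x
    exact hc m ⟨(x : V), x.2⟩

omit [Fintype ι] [AddCommGroup V] [Module k V] in
/-- A finite field of constants and a function with its only pole at `q`. -/
theorem exists_const_pole (q : Place k) : ∃ (F : Type) (_ : Field F) (_ : Finite F) (_j : F →+* k)
    (f : k), 1 < q.abv f ∧ ∀ v : Place k, v ≠ q → v.abv f ≤ 1 := by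
  obtain ⟨F, h1, h2, φ, -⟩ := (inferInstance : GFF k).out
  obtain ⟨f, h3, h4⟩ := exists_pole (toPl q)
  refine ⟨F, h1, h2, φ.comp (algebraMap F (RatFunc F)), f, ?_, fun v hv => ?_⟩
  · by_contra h
    exact absurd ((toPl_le_one q f).2 (not_lt.1 h)) (not_le.2 h3)
  · exact (toPl_le_one v f).1 (h4 _ fun h => hv (toPl_injective h))

end Vale.Agent.P011.H519
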