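import Mathlib

/-!
# Separable maximal subfields of central division algebras, in any characteristic

`exists_separable_maximal` : a central division algebra of finite dimension over a field `K` has a
maximal subfield which is separable over `K` (Köthe).

`exists_splitting` : hence it is split by a finite separable extension of `K`.
-/

open Module Polynomial

set_option linter.unusedSectionVars false

namespace Vale.Agent.P011.H519

universe u v

section dc

variable {K : Type u} {D : Type v} [Field K] [DivisionRing D] [Algebra K D]
  [FiniteDimensional K D] [Algebra.IsCentral K D]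

theorem mem_base {x : D} (h : ∀ y, x * y = y * x) : ∃ k : K, algebraMap K D k = x := by
  have h1 : x ∈ Subalgebra.center K D := Subalgebra.mem_center_iff.mpr fun y => (h y).symm
  rw [Algebra.IsCentral.center_eq_bot] at h1
  exact Algebra.mem_bot.mp h1

/-- The maps `x ↦ ∑ a i * x * t i` determine the coefficients `a i`. -/
theorem sandwich_inj {ι : Type*} [Fintype ι] (t : ι → D) (ht : LinearIndependent K t)
    (a : ι → D) (ha : ∀ x, ∑ i, a i * x * t i = 0) : a = 0 := by
  classical
  have key : ∀ (m : ℕ) (a : ι → D), (Finset.univ.filter fun j => a j ≠ 0).card = m →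
      (∀ x, ∑ i, a i * x * t i = 0) → a = 0 := by
    intro m
    induction m using Nat.strong_induction_on with
    | _ m ih =>
      intro a hm ha
      by_contra hne
      obtain ⟨j0, hj0⟩ : ∃ j, a j ≠ 0 := by
        by_contra h
        push Not at h
        exact hne (funext h)
      let a' : ι → D := fun j => (a j0)⁻¹ * a j
      have ha'j0 : a' j0 = 1 := inv_mul_cancel₀ hj0
      have ha' : ∀ x, ∑ i, a' i * x * t i = 0 := by
        intro x
        have : ∑ i, a' i * x * t i = (a j0)⁻¹ * ∑ i, a i * x * t i := by
          rw [Finset.mul_sum]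
          exact Finset.sum_congr rfl fun i _ => by simp only [a', mul_assoc]
        rw [this, ha, mul_zero]
      have hcomm : ∀ y i, a' i * y = y * a' i := by
        intro y
        have h0 : (fun i => a' i * y - y * a' i) = 0 := by
          apply ih _ _ _ rfl
          · intro x
            have : ∑ i, (a' i * y - y * a' i) * x * t i =
                ∑ i, a' i * (y * x) * t i - y * ∑ i, a' i * x * t i := by
              rw [Finset.mul_sum, ← Finset.sum_sub_distrib]
              exact Finset.sum_congr rfl fun i _ => by simp only [sub_mul, mul_assoc]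
            rw [this, ha', ha', mul_zero, sub_zero]
          · rw [← hm]
            apply Finset.card_lt_card
            rw [Finset.ssubset_iff_of_subset]
            · refine ⟨j0, by simpa using hj0, ?_⟩
              simp [ha'j0]
            · intro j hj
              simp only [Finset.mem_filter, Finset.mem_univ, true_and] at hj ⊢
              intro h0
              apply hj
              simp [a', h0]
        intro i
        exact sub_eq_zero.mp (congrFun h0 i)
      have h1 : ∀ i, ∃ k : K, algebraMap K D k = a' i := fun i => mem_base fun y => hcomm y i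
      choose k hk using h1
      have h2 : ∑ i, k i • t i = 0 := by
        rw [← ha' 1]
        exact Finset.sum_congr rfl fun i _ => by rw [mul_one, ← hk, Algebra.smul_def]
      have h3 := Fintype.linearIndependent_iff.mp ht k h2 j0
      rw [← hk, h3, map_zero] at ha'j0
      exact zero_ne_one ha'j0
  exact key _ a rfl ha

/-- The `K`-linear map `x ↦ ∑ a i * x * t i`. -/
def sand {ι : Type*} [Fintype ι] (t : ι → D) : (ι → D) →ₗ[K] (D →ₗ[K] D) where
  toFun a :=
    { toFun := fun x => ∑ i, a i * x * t i
      map_add' := fun x y => by
        rw [← Finset.sum_add_distrib]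
        exact Finset.sum_congr rfl fun i _ => by rw [mul_add, add_mul]
      map_smul' := fun k x => by
        rw [RingHom.id_apply, Finset.smul_sum]
        exact Finset.sum_congr rfl fun i _ => by rw [mul_smul_comm, smul_mul_assoc] }
  map_add' a b := by
    ext x
    change ∑ i, (a i + b i) * x * t i = ∑ i, a i * x * t i + ∑ i, b i * x * t i
    rw [← Finset.sum_add_distrib]
    exact Finset.sum_congr rfl fun i _ => by rw [add_mul, add_mul]
  map_smul' k a := by
    ext x
    change ∑ i, (k • a i) * x * t i = k • ∑ i, a i * x * t i
    rw [Finset.smul_sum]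
    exact Finset.sum_congr rfl fun i _ => by rw [smul_mul_assoc, smul_mul_assoc]

theorem sand_apply {ι : Type*} [Fintype ι] (t a : ι → D) (x : D) :
    sand (K := K) t a x = ∑ i, a i * x * t i := rfl

theorem sandwich_surj {ι : Type*} [Fintype ι] (t : Basis ι K D) (f : D →ₗ[K] D) :
    ∃ a : ι → D, ∀ x, f x = ∑ i, a i * x * t i := by
  have h1 : Function.Injective (sand (K := K) (t : ι → D)) := by
    rw [← LinearMap.ker_eq_bot, LinearMap.ker_eq_bot']
    intro a ha
    apply sandwich_inj (K := K) t t.linearIndependent a
    intro x
    rw [← sand_apply (K := K), ha]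
    rfl
  have h2 : finrank K (ι → D) = finrank K (D →ₗ[K] D) := by
    rw [Module.finrank_linearMap, Module.finrank_pi_fintype, Finset.sum_const, Finset.card_univ,
      smul_eq_mul, Module.finrank_eq_card_basis t]
  obtain ⟨a, ha⟩ := (LinearMap.injective_iff_surjective_of_finrank_eq_finrank h2).mp h1 f
  exact ⟨a, fun x => by rw [← ha]; rfl⟩

/-- The double centralizer theorem, dimension count. -/
theorem finrank_centralizer (E : Subalgebra K D) :
    finrank K E * finrank K (Subalgebra.centralizer K (E : Set D)) = finrank K D := by
  let _ : DivisionRing E := divisionRingOfFiniteDimensional K E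
  let ι := Fin (finrank K D)
  let t : Basis ι K D := Module.finBasis K D
  let C := Subalgebra.centralizer K (E : Set D)
  have hC : ∀ c : C, ∀ e : E, (e : D) * c = c * e := fun c e =>
    Subalgebra.mem_centralizer_iff K |>.mp c.2 e e.2
  let Φ : (ι → C) →ₗ[K] (D →ₗ[E] D) :=
    { toFun := fun a =>
        { toFun := fun x => ∑ i, (a i : D) * x * t i
          map_add' := fun x y => by
            rw [← Finset.sum_add_distrib]
            exact Finset.sum_congr rfl fun i _ => by rw [mul_add, add_mul]
          map_smul' := fun k x => by
            rw [RingHom.id_apply]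
            change ∑ i, (a i : D) * ((k : D) * x) * t i = (k : D) * ∑ i, (a i : D) * x * t i
            rw [Finset.mul_sum]
            exact Finset.sum_congr rfl fun i _ => by
              rw [← mul_assoc (a i : D), ← hC]; simp only [mul_assoc] }
      map_add' := fun a b => by
        ext x
        change ∑ i, ((a i : D) + b i) * x * t i = ∑ i, a i * x * t i + ∑ i, b i * x * t i
        rw [← Finset.sum_add_distrib]
        exact Finset.sum_congr rfl fun i _ => by rw [add_mul, add_mul]
      map_smul' := fun k a => by
        ext x
        change ∑ i, (k • (a i : D)) * x * t i = k • ∑ i, a i * x * t i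
        rw [Finset.smul_sum]
        exact Finset.sum_congr rfl fun i _ => by rw [smul_mul_assoc, smul_mul_assoc] }
  have hΦ : ∀ a x, Φ a x = ∑ i, (a i : D) * x * t i := fun _ _ => rfl
  have hinj : Function.Injective Φ := by
    rw [← LinearMap.ker_eq_bot, LinearMap.ker_eq_bot']
    intro a ha
    have := sandwich_inj (K := K) t t.linearIndependent (fun i => (a i : D)) (by
      intro x
      rw [← hΦ, ha]
      rfl)
    funext i
    exact Subtype.ext (congrFun this i)
  have hsurj : Function.Surjective Φ := by
    intro f
    obtain ⟨a, ha⟩ := sandwich_surj t (f.restrictScalars K)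
    have ha' : ∀ x, f x = ∑ i, a i * x * t i := ha
    have hmem : ∀ i, a i ∈ C := by
      intro i
      rw [Subalgebra.mem_centralizer_iff]
      intro e he
      have := sandwich_inj (K := K) t t.linearIndependent (fun i => e * a i - a i * e) (by
        intro x
        have h1 : f ((⟨e, he⟩ : E) • x) = (⟨e, he⟩ : E) • f x := f.map_smul _ _
        have h2 : f (e * x) = e * f x := h1
        rw [ha', ha', Finset.mul_sum] at h2
        have h3 : ∑ i, (e * a i - a i * e) * x * t i =
            ∑ i, e * (a i * x * t i) - ∑ i, a i * (e * x) * t i := by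
          rw [← Finset.sum_sub_distrib]
          exact Finset.sum_congr rfl fun i _ => by simp only [sub_mul, mul_assoc]
        rw [h3, h2, sub_self])
      exact sub_eq_zero.mp (congrFun this i)
    refine ⟨fun i => ⟨a i, hmem i⟩, ?_⟩
    ext x
    rw [hΦ, ha']
  have h1 : finrank K (ι → C) = finrank K (D →ₗ[E] D) :=
    (LinearEquiv.ofBijective Φ ⟨hinj, hsurj⟩).finrank_eq
  have : Module.Finite E D := Module.Finite.of_restrictScalars_finite K E D
  rw [Module.finrank_linearMap, Module.finrank_pi_fintype, Finset.sum_const, Finset.card_univ,
    smul_eq_mul, Fintype.card_fin, mul_comm] at h1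
  have hpos : 0 < finrank K D := Module.finrank_pos
  have h2 : finrank K C = finrank E D := Nat.eq_of_mul_eq_mul_right hpos h1
  have h3 : finrank K E * finrank E D = finrank K D := Module.finrank_mul_finrank K E D
  rw [← h3, ← h2]

/-- The double centralizer theorem. -/
theorem centralizer_centralizer (E : Subalgebra K D) :
    Subalgebra.centralizer K (Subalgebra.centralizer K (E : Set D) : Set D) = E := by
  have h1 := finrank_centralizer E
  have h2 := finrank_centralizer (Subalgebra.centralizer K (E : Set D))
  have hle : E ≤ Subalgebra.centralizer K (Subalgebra.centralizer K (E : Set D) : Set D) :=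
    Subalgebra.le_centralizer_centralizer K
  have hpos : 0 < finrank K (Subalgebra.centralizer K (E : Set D)) := Module.finrank_pos
  symm
  apply Subalgebra.eq_of_le_of_finrank_eq hle
  apply Nat.eq_of_mul_eq_mul_left hpos
  rw [h2, mul_comm, h1]

end dc

section jn

open scoped IsMulCommutative in
/-- A central division algebra over `L` which is not `L` contains a proper separable extension
of `L` (Jacobson-Noether). -/
theorem exists_separable_step {L C : Type u} [Field L] [DivisionRing C] [Algebra L C]
    [FiniteDimensional L C] [Algebra.IsCentral L C] (h1 : finrank L C ≠ 1) :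
    ∃ (M : Type u) (_ : Field M) (_ : Algebra L M), Algebra.IsSeparable L M ∧
      FiniteDimensional L M ∧ 1 < finrank L M ∧ Nonempty (M →ₐ[L] C) := by
  have hneq : (⊥ : Subalgebra L C) ≠ ⊤ := by
    intro h
    exact h1 (Subalgebra.bot_eq_top_iff_finrank_eq_one.mp h)
  obtain ⟨x, hx, hsep⟩ := JacobsonNoether.exists_separable_and_not_isCentral' (L := L) (D := C) hneq
  have hcomm : ∀ a ∈ ({x} : Set C), ∀ b ∈ ({x} : Set C), a * b = b * a := by
    rintro a rfl b rfl; rfl
  let M := Algebra.adjoin L ({x} : Set C)
  have _ : IsMulCommutative M := Algebra.isMulCommutative_adjoin L hcomm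
  have : IsDomain M := inferInstance
  let _ : Field M := fieldOfFiniteDimensional L M
  let x' : M := ⟨x, Algebra.self_mem_adjoin_singleton L x⟩
  have hx' : IsSeparable L x' := by
    have h2 : minpoly L x' = minpoly L x := by
      rw [← minpoly.algHom_eq M.val Subtype.val_injective x']
      rfl
    unfold IsSeparable
    rw [h2]
    exact hsep
  have htop : IntermediateField.adjoin L ({x'} : Set M) = ⊤ := by
    have h3 : Algebra.adjoin L ({x'} : Set M) = ⊤ := by
      rw [eq_top_iff]
      rintro ⟨y, hy⟩ -
      obtain ⟨q, hq⟩ := (Algebra.adjoin_singleton_eq_range_aeval L x ▸ hy :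
        y ∈ (aeval (R := L) x).range)
      rw [Algebra.adjoin_singleton_eq_range_aeval]
      refine ⟨q, Subtype.ext ?_⟩
      have h4 : (M.val (aeval x' q)) = aeval x q := by
        rw [← aeval_algHom_apply]; rfl
      exact h4.trans hq
    rw [eq_top_iff, ← IntermediateField.toSubalgebra_le_toSubalgebra,
      IntermediateField.top_toSubalgebra, ← h3]
    exact Algebra.adjoin_le (IntermediateField.subset_adjoin L _)
  have hsepM : Algebra.IsSeparable L M := by
    have h5 := (IntermediateField.isSeparable_adjoin_simple_iff_isSeparable L M).mpr hx'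
    refine ⟨fun y => ?_⟩
    exact IntermediateField.isSeparable_of_mem_isSeparable L M
      (L := IntermediateField.adjoin L ({x'} : Set M)) (by rw [htop]; trivial)
  refine ⟨M, inferInstance, inferInstance, hsepM, inferInstance, ?_, ⟨M.val⟩⟩
  have hpos : 0 < finrank L M := Module.finrank_pos
  have hne : finrank L M ≠ 1 := by
    intro h
    have h6 := Subalgebra.bot_eq_top_iff_finrank_eq_one (F := L) (E := M) |>.mpr h
    have h7 : x' ∈ (⊥ : Subalgebra L M) := by rw [h6]; trivial
    obtain ⟨c, hc⟩ := Algebra.mem_bot.mp h7
    apply hx
    rw [Algebra.mem_bot]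
    exact ⟨c, congrArg Subtype.val hc⟩
  omega

end jn

section koethe

variable {K D : Type u} [Field K] [DivisionRing D] [Algebra K D]
  [FiniteDimensional K D] [Algebra.IsCentral K D]

/-- A subfield `L` of `D`, separable over `K`, which is not its own centralizer is contained in a
bigger one. -/
theorem exists_bigger {L : Type u} [Field L] [Algebra K L] [FiniteDimensional K L]
    [Algebra.IsSeparable K L] (j : L →ₐ[K] D) (hj : finrank K L ^ 2 ≠ finrank K D) :
    ∃ (M : Type u) (_ : Field M) (_ : Algebra K M), Algebra.IsSeparable K M ∧
      FiniteDimensional K M ∧ finrank K L < finrank K M ∧ Nonempty (M →ₐ[K] D) := by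
  let C := Subalgebra.centralizer K (j.range : Set D)
  let _ : DivisionRing C := divisionRingOfFiniteDimensional K C
  have hmem : ∀ l : L, j l ∈ C := by
    intro l
    rw [Subalgebra.mem_centralizer_iff]
    rintro _ ⟨l', rfl⟩
    change j l' * j l = j l * j l'
    rw [← map_mul, ← map_mul, mul_comm]
  have hcomm : ∀ (c : C) (l : L), (c : D) * j l = j l * c := by
    intro c l
    exact ((Subalgebra.mem_centralizer_iff K).mp c.2 (j l) ⟨l, rfl⟩).symm
  let jC : L →+* C := (j : L →+* D).codRestrict C hmem
  have hjC : ∀ l, ((jC l : C) : D) = j l := fun _ => rfl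
  let _ : Algebra L C := RingHom.toAlgebra' jC (fun l c => Subtype.ext (by
    change j l * (c : D) = (c : D) * j l
    exact (hcomm c l).symm))
  have hsm : ∀ (l : L) (c : C), ((l • c : C) : D) = j l * c := fun _ _ => rfl
  have ht : IsScalarTower K L C := ⟨fun k l c => Subtype.ext (by
    change j (k • l) * (c : D) = k • (j l * (c : D))
    rw [map_smul, smul_mul_assoc])⟩
  have hfin : FiniteDimensional L C := Module.Finite.of_restrictScalars_finite K L C
  have hcen : Algebra.IsCentral L C := by
    refine ⟨fun x hx => ?_⟩
    rw [Subalgebra.mem_center_iff] at hx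
    have h1 : (x : D) ∈ Subalgebra.centralizer K (C : Set D) := by
      rw [Subalgebra.mem_centralizer_iff]
      intro y hy
      exact congrArg Subtype.val (hx ⟨y, hy⟩)
    rw [centralizer_centralizer] at h1
    obtain ⟨l, hl⟩ := h1
    rw [Algebra.mem_bot]
    exact ⟨l, Subtype.ext hl⟩
  have hL : finrank K j.range = finrank K L :=
    (AlgEquiv.ofInjective j (j : L →+* D).injective).toLinearEquiv.finrank_eq.symm
  have h2 : finrank K L * finrank K C = finrank K D := by
    rw [← hL]; exact finrank_centralizer j.range
  have h3 : finrank K L * finrank L C = finrank K C := Module.finrank_mul_finrank K L C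
  have hne : finrank L C ≠ 1 := by
    intro h
    rw [h, mul_one] at h3
    apply hj
    rw [← h2, ← h3, sq]
  obtain ⟨M, hMf, hLM, hs, hfM, hlt, ⟨i⟩⟩ := exists_separable_step hne
  let _ : Algebra K M := ((algebraMap L M).comp (algebraMap K L)).toAlgebra
  have ht2 : IsScalarTower K L M := IsScalarTower.of_algebraMap_eq fun _ => rfl
  refine ⟨M, hMf, inferInstance, Algebra.IsSeparable.trans K L M, FiniteDimensional.trans K L M,
    ?_, ⟨?_⟩⟩
  · rw [← Module.finrank_mul_finrank K L M]
    have hpos : 0 < finrank K L := Module.finrank_pos
    nlinarith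
  · refine (C.val).comp (AlgHom.mk (i : M →+* C) fun k => ?_)
    have h4 : i (algebraMap L M (algebraMap K L k)) = algebraMap L C (algebraMap K L k) :=
      i.commutes _
    change i (algebraMap L M (algebraMap K L k)) = _
    rw [h4]
    exact Subtype.ext (j.commutes k)

/-- **Köthe's theorem**: `D` has a maximal subfield which is separable over the centre. -/
theorem exists_separable_maximal : ∃ (L : Type u) (_ : Field L) (_ : Algebra K L),
    Algebra.IsSeparable K L ∧ FiniteDimensional K L ∧ finrank K L ^ 2 = finrank K D ∧
      Nonempty (L →ₐ[K] D) := by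
  let S : Set ℕ := {m | ∃ (L : Type u) (_ : Field L) (_ : Algebra K L),
    Algebra.IsSeparable K L ∧ FiniteDimensional K L ∧ finrank K L = m ∧ Nonempty (L →ₐ[K] D)}
  have hne : S.Nonempty := ⟨_, K, inferInstance, inferInstance, inferInstance, inferInstance, rfl,
    ⟨Algebra.ofId K D⟩⟩
  have hbdd : BddAbove S := by
    refine ⟨finrank K D, ?_⟩
    rintro m ⟨L, _, _, -, -, rfl, ⟨j⟩⟩
    exact LinearMap.finrank_le_finrank_of_injective (f := j.toLinearMap)
      (j : L →+* D).injective
  obtain ⟨L, hL1, hL2, hL3, hL4, hm, ⟨j⟩⟩ := Nat.sSup_mem hne hbdd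
  refine ⟨L, hL1, hL2, hL3, hL4, ?_, ⟨j⟩⟩
  by_contra hcon
  obtain ⟨M, h1, h2, h3, h4, h5, h6⟩ := exists_bigger j hcon
  have h7 : finrank K M ≤ sSup S := le_csSup hbdd ⟨M, h1, h2, h3, h4, rfl, h6⟩
  omega

/-- A maximal subfield splits. -/
theorem splitting_of_maximal {n : ℕ} {L : Type u} [Field L] [Algebra K L]
    (hL : finrank K L = n) (hD : finrank K D = n ^ 2) (j : L →ₐ[K] D) :
    Nonempty (D →ₐ[K] Matrix (Fin n) (Fin n) L) := by
  have hn : 0 < n := by
    rcases Nat.eq_zero_or_pos n with h | h
    · exfalso
      have h1 : 0 < finrank K D := Module.finrank_pos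
      rw [hD, h] at h1
      simp at h1
    · exact h
  let inst : Module L D :=
    { smul := fun l x => x * j l
      one_smul := fun x => by change x * j 1 = x; rw [map_one, mul_one]
      mul_smul := fun a b x => by
        change x * j (a * b) = x * j b * j a
        rw [mul_comm a b, map_mul, mul_assoc]
      smul_zero := fun a => zero_mul _
      smul_add := fun a x y => add_mul _ _ _
      add_smul := fun a b x => by change x * j (a + b) = x * j a + x * j b; rw [map_add, mul_add]
      zero_smul := fun x => by change x * j 0 = 0; rw [map_zero, mul_zero] }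
  have hsmul : ∀ (l : L) (x : D), l • x = x * j l := fun _ _ => rfl
  have htower : IsScalarTower K L D := ⟨fun c l x => by
    rw [hsmul, hsmul, map_smul, mul_smul_comm]⟩
  have hfin : Module.Finite L D := Module.Finite.of_restrictScalars_finite K L D
  have h1 : finrank L D = n := by
    have h1 : finrank K L * finrank L D = finrank K D := Module.finrank_mul_finrank K L D
    rw [hL, hD, sq] at h1
    exact Nat.eq_of_mul_eq_mul_left hn h1
  let b : Basis (Fin n) L D := Module.finBasisOfFinrankEq L D h1
  let lm : D →+* Module.End L D :=
    { toFun := fun x =>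
        { toFun := fun y => x * y
          map_add' := fun y z => mul_add x y z
          map_smul' := fun l y => by
            rw [RingHom.id_apply, hsmul, hsmul, mul_assoc] }
      map_one' := by ext y; exact one_mul y
      map_mul' := fun x y => by ext z; exact mul_assoc x y z
      map_zero' := by ext y; exact zero_mul y
      map_add' := fun x y => by ext z; exact add_mul x y z }
  let f : D →+* Matrix (Fin n) (Fin n) L :=
    ((LinearMap.toMatrixAlgEquiv b : Module.End L D ≃ₐ[L] Matrix (Fin n) (Fin n) L) :
      Module.End L D →+* Matrix (Fin n) (Fin n) L).comp lm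
  refine ⟨AlgHom.mk f fun c => ?_⟩
  have h2 : lm (algebraMap K D c) = algebraMap L (Module.End L D) (algebraMap K L c) := by
    ext y
    change algebraMap K D c * y = algebraMap K L c • y
    rw [hsmul, AlgHom.commutes, Algebra.commutes]
  change (LinearMap.toMatrixAlgEquiv b : Module.End L D ≃ₐ[L] Matrix (Fin n) (Fin n) L)
    (lm (algebraMap K D c)) = _
  rw [h2]
  refine ((LinearMap.toMatrixAlgEquiv b).commutes _).trans ?_
  rfl

/-- A central division algebra of degree `n` is split by a finite separable extension of its
centre. -/
theorem exists_splitting {n : ℕ} (hD : finrank K D = n ^ 2) :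
    ∃ (L : Type u) (_ : Field L) (_ : Algebra K L), Algebra.IsSeparable K L ∧
      FiniteDimensional K L ∧ Nonempty (D →ₐ[K] Matrix (Fin n) (Fin n) L) := by
  obtain ⟨L, h1, h2, h3, h4, h5, ⟨j⟩⟩ := exists_separable_maximal (K := K) (D := D)
  refine ⟨L, h1, h2, h3, h4, splitting_of_maximal ?_ hD j⟩
  exact Nat.pow_left_injective (n := 2) two_ne_zero (h5.trans hD)

end koethe

end Vale.Agent.P011.H519
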