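import Vale.Agent.P011.H519.SepSplit

/-!
# Separable splitting fields of central simple algebras, any characteristic
-/

open Module

namespace Vale.Agent.P011.H519

universe u

/-- A central simple algebra of degree `n` is split by a finite separable extension of its
centre. -/
theorem exists_splitting_simple {K A : Type u} [Field K] [Ring A] [Algebra K A]
    [Algebra.IsCentral K A] [IsSimpleRing A] {n : ℕ} (hn : n ≠ 0) (hA : finrank K A = n ^ 2) :
    ∃ (L : Type u) (_ : Field L) (_ : Algebra K L), Algebra.IsSeparable K L ∧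
      FiniteDimensional K L ∧ Nonempty (A →ₐ[K] Matrix (Fin n) (Fin n) L) := by
  have hfd : FiniteDimensional K A := Module.finite_of_finrank_pos (by rw [hA]; positivity)
  have hart : IsArtinianRing A := IsArtinianRing.of_finite K A
  obtain ⟨m, hm, D, _, _, hDf, ⟨e⟩⟩ := IsSimpleRing.exists_algEquiv_matrix_divisionRing_finite K A
  have hm0 : m ≠ 0 := hm.out
  have hcen : Algebra.IsCentral K D := by
    refine ⟨fun x hx => ?_⟩
    have hx' : ∀ y : D, y * x = x * y := Subalgebra.mem_center_iff.mp hx
    have h1 : e.symm (Matrix.scalar (Fin m) x) ∈ Subalgebra.center K A := by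
      rw [Subalgebra.mem_center_iff]
      intro b
      apply e.injective
      rw [map_mul, map_mul, AlgEquiv.apply_symm_apply]
      exact ((Matrix.scalar_commute x (fun r => (hx' r).symm) (e b)).eq).symm
    rw [Algebra.IsCentral.center_eq_bot, Algebra.mem_bot] at h1
    obtain ⟨c, hc⟩ := h1
    rw [Algebra.mem_bot]
    refine ⟨c, ?_⟩
    have h2 : algebraMap K (Matrix (Fin m) (Fin m) D) c = Matrix.scalar (Fin m) x := by
      rw [← e.commutes, hc, AlgEquiv.apply_symm_apply]
    have h3 := congrFun (congrFun h2 (0 : Fin m)) (0 : Fin m)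
    rwa [Matrix.algebraMap_matrix_apply, if_pos rfl, Matrix.scalar_apply, Matrix.diagonal_apply_eq]
      at h3
  have hdim : m ^ 2 * finrank K D = n ^ 2 := by
    rw [← hA, e.toLinearEquiv.finrank_eq, Module.finrank_matrix, Fintype.card_fin]
    ring
  obtain ⟨d, rfl⟩ : m ∣ n := by
    rw [← Nat.pow_dvd_pow_iff (n := 2) two_ne_zero]
    exact ⟨_, hdim.symm⟩
  have hD : finrank K D = d ^ 2 := by
    have h1 : m ^ 2 * finrank K D = m ^ 2 * d ^ 2 := by rw [hdim]; ring
    exact Nat.eq_of_mul_eq_mul_left (by positivity) h1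
  obtain ⟨L, _, _, h1, h2, ⟨f⟩⟩ := exists_splitting (K := K) (D := D) hD
  refine ⟨L, _, _, h1, h2, ⟨?_⟩⟩
  exact (Matrix.reindexAlgEquiv K L (finProdFinEquiv (m := m) (n := d))).toAlgHom.comp
    ((Matrix.compAlgEquiv (Fin m) (Fin d) L K).toAlgHom.comp
      (f.mapMatrix.comp e.toAlgHom))

end Vale.Agent.P011.H519
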